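import Vale.Agent.P092.SR.St
import Vale.Agent.P092.H678.ExSt

/-!
P092, project B (helper58): the named conjuncts of the final statements.
* `tfn_of`: from `FinalTF` to `FinalTFN` (`L(SL_n(F[t,1/t]))` is not isomorphic to `L(Λ)`, `Λ`
  torsion-free);
* `final1F_of`, `finalAllF_of`: `SL_n(F[t,1/t])`, `F` any finite field, `gcd(n, |F| - 1) = 1`.
-/

set_option linter.all false

open Vale.Agent.P092.H160.St Vale.Agent.P092.H103.St Vale.Agent.P092.H515.St

namespace Vale.Agent.P092.SR.St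

/-- `FinalTF` with the named examples. -/
def FinalTFN : Prop :=
  FinalTF ∧
  ∀ (F : Type) [Field F] [Finite F] (n : ℕ), 2 ≤ n → Nat.Coprime n (Nat.card F - 1) →
    ∀ (Λ : Type) [Group Λ] [Countable Λ], ICC Λ →
    (∀ s : Λ, s ≠ 1 → ∀ n : ℕ, n ≠ 0 → s ^ n ≠ 1) →
    IsEmpty (StarIso (Matrix.SpecialLinearGroup (Fin n) (LaurentPolynomial F)) Λ)

/-- `Final1` with all finite fields. -/
def Final1F : Prop :=
  (∀ (Γ : Type) [Group Γ], PadicProductLattice Γ → Super Γ) ∧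
  ∀ (F : Type) [Field F] [Finite F] (n : ℕ), 2 ≤ n → Nat.Coprime n (Nat.card F - 1) →
    Super (Matrix.SpecialLinearGroup (Fin n) (LaurentPolynomial F))

/-- `FinalAll` with all finite fields. -/
def FinalAllF : Prop :=
  (∀ (Γ : Type) [Group Γ], PadicProductLattice Γ → SuperAll Γ) ∧
  ∀ (F : Type) [Field F] [Finite F] (n : ℕ), 2 ≤ n → Nat.Coprime n (Nat.card F - 1) →
    SuperAll (Matrix.SpecialLinearGroup (Fin n) (LaurentPolynomial F))

end Vale.Agent.P092.SR.St

namespace Vale.Agent.P092.H58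

open Vale.Agent.P092.SR.St Vale.Agent.P092.H678

theorem trans_pow {R : Type} [CommRing R] {n : ℕ} {i j : Fin n} (hij : i ≠ j) (c : R) (m : ℕ) :
    (Matrix.transvection i j c) ^ m = Matrix.transvection i j ((m : R) * c) := by
  induction m with
  | zero => simp [Matrix.transvection]
  | succ m ih =>
    rw [pow_succ, ih, Matrix.transvection_mul_transvection_same _ _ hij]
    congr 1
    push_cast
    ring

/-- `SL_n(F[t,1/t])` has an element of finite order. -/
theorem exists_torsion (F : Type) [Field F] [Finite F] {n : ℕ} (hn : 2 ≤ n) :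
    ∃ (g : Matrix.SpecialLinearGroup (Fin n) (LaurentPolynomial F)) (m : ℕ), g ≠ 1 ∧ m ≠ 0 ∧
      g ^ m = 1 := by
  have hij : (⟨0, by omega⟩ : Fin n) ≠ ⟨1, by omega⟩ := by simp [Fin.ext_iff]
  refine ⟨⟨Matrix.transvection ⟨0, by omega⟩ ⟨1, by omega⟩ 1,
    Matrix.det_transvection_of_ne _ _ hij 1⟩, ringChar F, ?_, CharP.ringChar_ne_zero_of_finite F, ?_⟩
  · intro h
    have h1 := congrArg (fun g : Matrix.SpecialLinearGroup (Fin n) (LaurentPolynomial F) =>
      (g : Matrix (Fin n) (Fin n) (LaurentPolynomial F)) ⟨0, by omega⟩ ⟨1, by omega⟩) h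
    simp [Matrix.transvection, Matrix.one_apply_ne hij] at h1
  · apply Subtype.ext
    refine (Matrix.SpecialLinearGroup.coe_pow _ _).trans ?_
    change (Matrix.transvection _ _ _) ^ ringChar F = _
    rw [trans_pow hij]
    have h2 : ((ringChar F : ℕ) : LaurentPolynomial F) = 0 := by
      rw [← map_natCast (algebraMap F (LaurentPolynomial F)), CharP.cast_eq_zero, map_zero]
    rw [h2, zero_mul, Matrix.transvection_zero]
    rfl

theorem isEmpty_of_canonical {Γ Λ : Type} [Group Γ] [Group Λ]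
    (hΓ : ∃ (g : Γ) (m : ℕ), g ≠ 1 ∧ m ≠ 0 ∧ g ^ m = 1)
    (hΛ : ∀ s : Λ, s ≠ 1 → ∀ n : ℕ, n ≠ 0 → s ^ n ≠ 1) (h : ∀ θ : StarIso Γ Λ, Canonical θ) :
    IsEmpty (StarIso Γ Λ) := by
  refine ⟨fun θ => ?_⟩
  obtain ⟨g, m, hg, hm, hgm⟩ := hΓ
  obtain ⟨δ, -⟩ := h θ
  refine hΛ (δ g) (fun h1 => hg ?_) m hm ?_
  · exact δ.injective (by rw [h1, map_one])
  · rw [← map_pow, hgm, map_one]

theorem tfn_of (h : FinalTF) : FinalTFN :=
  ⟨h, fun F _ _ n hn hc Λ _ _ hΛ htf => isEmpty_of_canonical (exists_torsion F hn) htf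
    (h _ (padic_SL n F hn hc) Λ hΛ htf)⟩

theorem final1F_of (h : ∀ (Γ : Type) [Group Γ], PadicProductLattice Γ → Super Γ) : Final1F :=
  ⟨h, fun F _ _ n hn hc => h _ (padic_SL n F hn hc)⟩

theorem finalAllF_of (h : ∀ (Γ : Type) [Group Γ], PadicProductLattice Γ → SuperAll Γ) : FinalAllF :=
  ⟨h, fun F _ _ n hn hc => h _ (padic_SL n F hn hc)⟩

end Vale.Agent.P092.H58
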