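import Vale.Agent.P092.SR.StR
import Vale.Agent.P092.H58.Named
import Vale.Agent.P092.H971.PlcAbs
import Vale.Agent.P092.H133.Transp

/-!
P092, project B (helper58): from the subgroup forms to the letters of `SR/StR.lean`.
-/

set_option linter.all false

open Vale.Agent.P092.H160.St Vale.Agent.P092.H103.St Vale.Agent.P092.H515.St
open Vale.Agent.P092.SR.St Matrix

namespace Vale.Agent.P092.H58

/-- The form for subgroups of the product. -/
def SubForm (P : ∀ (Γ : Type) [Group Γ], Prop) : Prop :=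
  ∀ (r : ℕ) (n : Fin r → ℕ) (k : Fin r → Type) [∀ j, NontriviallyNormedField (k j)]
    [∀ j, ProperSpace (k j)] [∀ j, IsUltrametricDist (k j)]
    (Γ : Subgroup (∀ j, SpecialLinearGroup (Fin (n j)) (k j))),
    2 ≤ r → (∀ j, 2 ≤ n j) → IsLattice Γ →
    (∀ j, DenseRange fun g : Γ => (g : ∀ j, SpecialLinearGroup (Fin (n j)) (k j)) j) →
    (∀ g : Γ, g ≠ 1 → Set.Infinite {y : Γ | ∃ h, y = h * g * h⁻¹}) → P Γ

theorem lift {P : ∀ (Γ : Type) [Group Γ], Prop}
    (hP : ∀ {Γ Γ' : Type} [Group Γ] [Group Γ'] (_ : Γ ≃* Γ'), P Γ' → P Γ) (h : SubForm P)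
    (Γ : Type) [Group Γ] (hΓ : PadicLattice Γ) : P Γ := by
  obtain ⟨hicc, r, k, _, n, i, hr, hk, hu, hn, hi⟩ := hΓ
  haveI := hk
  haveI := hu
  refine hP (MonoidHom.ofInjective hi.inj) (h r n k i.range hr hn hi.lat (fun j => ?_)
    (H133.icc_equiv (MonoidHom.ofInjective hi.inj) hicc))
  refine (hi.dense j).mono ?_
  rintro _ ⟨g, rfl⟩
  exact ⟨⟨i g, g, rfl⟩, rfl⟩

theorem super_equiv {Γ Γ' : Type} [Group Γ] [Group Γ'] (e : Γ ≃* Γ') (h : Super Γ') : Super Γ :=
  fun Λ _ _ hΛ θ => H133.canonical_transS e θ (h Λ hΛ _)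

theorem superAll_equiv {Γ Γ' : Type} [Group Γ] [Group Γ'] (e : Γ ≃* Γ') (h : SuperAll Γ') :
    SuperAll Γ := fun Λ _ _ hΛ n p hp θ =>
  ⟨(h Λ hΛ n p hp (H133.transC e θ)).1, H133.canonicalM_transC e θ (h Λ hΛ n p hp _).2⟩

/-- `Super` for torsion-free `Λ`. -/
def SuperTF (Γ : Type) [Group Γ] : Prop :=
  ∀ (Λ : Type) [Group Λ] [Countable Λ], ICC Λ → (∀ s : Λ, s ≠ 1 → ∀ n : ℕ, n ≠ 0 → s ^ n ≠ 1) →
    ∀ θ : StarIso Γ Λ, Canonical θ

theorem superTF_equiv {Γ Γ' : Type} [Group Γ] [Group Γ'] (e : Γ ≃* Γ') (h : SuperTF Γ') :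
    SuperTF Γ := fun Λ _ _ hΛ htf θ => H133.canonical_transS e θ (h Λ hΛ htf _)

section two

variable (k l : Type) (m n : ℕ)

/-- the two fields -/
def K2 : Fin 2 → Type := fun j => match j with
  | 0 => k
  | 1 => l

/-- the two degrees -/
def N2 : Fin 2 → ℕ := fun j => match j with
  | 0 => m
  | 1 => n

variable [NontriviallyNormedField k] [NontriviallyNormedField l]

instance instK2 : ∀ j, NontriviallyNormedField (K2 k l j) := fun j => match j with
  | 0 => inferInstanceAs (NontriviallyNormedField k)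
  | 1 => inferInstanceAs (NontriviallyNormedField l)

theorem properK2 [ProperSpace k] [ProperSpace l] : ∀ j, ProperSpace (K2 k l j) := fun j => match j with
  | 0 => inferInstanceAs (ProperSpace k)
  | 1 => inferInstanceAs (ProperSpace l)

theorem ultraK2 [IsUltrametricDist k] [IsUltrametricDist l] : ∀ j, IsUltrametricDist (K2 k l j) :=
  fun j => match j with
  | 0 => inferInstanceAs (IsUltrametricDist k)
  | 1 => inferInstanceAs (IsUltrametricDist l)

/-- the group of one factor -/
abbrev S2 (j : Fin 2) : Type := SpecialLinearGroup (Fin (N2 m n j)) (K2 k l j)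

/-- pairs and families -/
def E2 : SpecialLinearGroup (Fin m) k × SpecialLinearGroup (Fin n) l ≃* ∀ j, S2 k l m n j where
  toFun x := fun j => match j with
    | 0 => x.1
    | 1 => x.2
  invFun y := (y 0, y 1)
  left_inv x := rfl
  right_inv y := by
    funext j
    match j with
    | 0 => rfl
    | 1 => rfl
  map_mul' x y := by
    funext j
    match j with
    | 0 => rfl
    | 1 => rfl

theorem continuous_E2 : Continuous (E2 k l m n) := by
  refine continuous_pi fun j => ?_
  match j with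
  | 0 => exact continuous_fst
  | 1 => exact continuous_snd

theorem continuous_E2_symm : Continuous (E2 k l m n).symm :=
  (continuous_apply (0 : Fin 2)).prodMk (continuous_apply (1 : Fin 2))

end two

/-- Two factors are a special case. -/
theorem padicLattice_of_product (Γ : Type) [Group Γ] (h : PadicProductLattice Γ) :
    PadicLattice Γ := by
  obtain ⟨hicc, k, l, _, _, m, n, i, hk, hl, huk, hul, hm, hn, hi⟩ := h
  haveI := hk
  haveI := hl
  haveI := huk
  haveI := hul
  haveI := properK2 k l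
  haveI := ultraK2 k l
  haveI : ∀ j, LocallyCompactSpace (S2 k l m n j) := fun j => by
    have : LocallyCompactSpace (Matrix (Fin (N2 m n j)) (Fin (N2 m n j)) (K2 k l j)) :=
      inferInstanceAs (LocallyCompactSpace (Fin _ → Fin _ → _))
    exact Matrix.SpecialLinearGroup.isClosedEmbedding_val.locallyCompactSpace
  refine ⟨hicc, 2, K2 k l, instK2 k l, N2 m n, (E2 k l m n : _ →* _).comp i, le_refl 2,
    properK2 k l, ultraK2 k l, ?_, ⟨?_, ?_, ?_⟩⟩
  · intro j
    match j with
    | 0 => exact hm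
    | 1 => exact hn
  · exact (E2 k l m n).injective.comp hi.inj
  · have h1 := H971.isLattice_equiv (E2 k l m n) (continuous_E2 k l m n)
      (continuous_E2_symm k l m n) hi.lat
    rwa [MonoidHom.map_range] at h1
  · intro j
    match j with
    | 0 => exact hi.dense₁
    | 1 => exact hi.dense₂

theorem finalTFR_of (h : SubForm SuperTF) : FinalTFR := by
  have h1 : ∀ (Γ : Type) [Group Γ], PadicLattice Γ → SuperTF Γ := lift (fun e => superTF_equiv e) h
  refine ⟨h1, fun F _ _ n hn hc Λ _ _ hΛ htf => isEmpty_of_canonical (exists_torsion F hn) htf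
    (h1 _ (padicLattice_of_product _ (H678.padic_SL n F hn hc)) Λ hΛ htf)⟩

theorem final1R_of (h : SubForm Super) : Final1R := by
  have h1 : ∀ (Γ : Type) [Group Γ], PadicLattice Γ → Super Γ := lift (fun e => super_equiv e) h
  exact ⟨h1, fun F _ _ n hn hc => h1 _ (padicLattice_of_product _ (H678.padic_SL n F hn hc))⟩

theorem finalAllR_of (h : SubForm SuperAll) : FinalAllR := by
  have h1 : ∀ (Γ : Type) [Group Γ], PadicLattice Γ → SuperAll Γ :=
    lift (fun e => superAll_equiv e) h
  exact ⟨h1, fun F _ _ n hn hc => h1 _ (padicLattice_of_product _ (H678.padic_SL n F hn hc))⟩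

end Vale.Agent.P092.H58
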