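import Vale.Agent.P092.H58.Simp
import Vale.Agent.P092.H962.MTD

/-!
P092 (helper58) [FRAME-T], part 2: finite Parseval frames of `p ℓ²(I × Λ)` for an amplified frame
`α` of `Γ` (and for its mirror image `JT ∘ α`), if `Λ` is ICC.
-/

set_option linter.all false

open scoped InnerProductSpace
open Filter Topology ContinuousLinearMap
open Vale.Agent.P092.H160 Vale.Agent.P092.H103 Vale.Agent.P092.H962

namespace Vale.Agent.P092.H58

variable {Γ Λ I : Type} [Group Γ] [Group Λ] [Fintype I]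

section coef

variable {α : Γ → (Ell2 (I × Λ) →L[ℂ] Ell2 (I × Λ))} (hα : AF α)

include hα

theorem sum_inner_al (h g : Γ) : ∑ i, ⟪α h (dl (i, 1)), α g (dl (i, 1))⟫_ℂ =
    (FS.mat I Λ).tr (α (h⁻¹ * g)) := by
  unfold FS.tr
  refine Finset.sum_congr rfl fun i _ => ?_
  rw [hα.inner_left, ← hα.mul_apply]
  rfl

/-- The coefficients of an element of the corner. -/
theorem coef_sum {X : Ell2 (I × Λ) →L[ℂ] Ell2 (I × Λ)} (hX : Eqv (FS.mat I Λ).R (FS.mat I Λ).R X)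
    (h1 : α 1 * X = X) (h2 : X * α 1 = X) :
    HasSum (fun g => ‖(FS.mat I Λ).tr (adjoint (α g) * X)‖ ^ 2)
      (dm α * ∑ i, ‖X (dl (i, 1))‖ ^ 2) := by
  classical
  obtain ⟨a, ha⟩ := hα.exp X hX h1 h2
  have hd : (FS.mat I Λ).tr (α 1) = (dm α : ℂ) := tr_p hα
  have htr : ∀ h, (FS.mat I Λ).tr (adjoint (α h) * X) = a h * dm α := by
    intro h
    have e1 : HasSum (fun g => ∑ i, ⟪α h (dl (i, 1)), a g • α g (dl (i, 1))⟫_ℂ)
        (∑ i, ⟪α h (dl (i, 1)), X (dl (i, 1))⟫_ℂ) :=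
      hasSum_sum fun i _ => (innerSL ℂ (α h (dl (i, 1)))).hasSum (ha i)
    have e2 : (fun g => ∑ i, ⟪α h (dl (i, 1)), a g • α g (dl (i, 1))⟫_ℂ) =
        fun g => if g = h then a h * dm α else 0 := by
      funext g
      simp only [inner_smul_right]
      rw [← Finset.mul_sum, sum_inner_al hα]
      by_cases hg : g = h
      · subst hg
        rw [if_pos rfl, inv_mul_cancel, hd]
      · rw [if_neg hg, hα.tr0, mul_zero]
        intro h0
        exact hg (inv_mul_eq_one.1 h0).symm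
    rw [e2] at e1
    have e3 := e1.unique (hasSum_ite_eq h (a h * dm α))
    rw [← e3]
    unfold FS.tr
    refine Finset.sum_congr rfl fun i _ => ?_
    rw [mul_ap, adjoint_inner_right]
    rfl
  have e4 : HasSum (fun g => ∑ i, ⟪X (dl (i, 1)), a g • α g (dl (i, 1))⟫_ℂ)
      (∑ i, ⟪X (dl (i, 1)), X (dl (i, 1))⟫_ℂ) :=
    hasSum_sum fun i _ => (innerSL ℂ (X (dl (i, 1)))).hasSum (ha i)
  have e5 : (fun g => ∑ i, ⟪X (dl (i, 1)), a g • α g (dl (i, 1))⟫_ℂ) =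
      fun g => (((dm α * ‖a g‖ ^ 2 : ℝ)) : ℂ) := by
    funext g
    simp only [inner_smul_right]
    rw [← Finset.mul_sum]
    have e6 : ∑ i, ⟪X (dl (i, 1)), α g (dl (i, 1))⟫_ℂ =
        (starRingEnd ℂ) ((FS.mat I Λ).tr (adjoint (α g) * X)) := by
      unfold FS.tr
      rw [map_sum]
      refine Finset.sum_congr rfl fun i _ => ?_
      rw [mul_ap, adjoint_inner_right, inner_conj_symm]
      rfl
    rw [e6, htr, map_mul, Complex.conj_ofReal, ← mul_assoc, Complex.mul_conj,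
      Complex.normSq_eq_norm_sq]
    push_cast
    ring
  have e7 : ∑ i, ⟪X (dl (i, 1)), X (dl (i, 1))⟫_ℂ = ((∑ i, ‖X (dl (i, 1))‖ ^ 2 : ℝ) : ℂ) := by
    push_cast
    exact Finset.sum_congr rfl fun i _ => inner_self_eq_norm_sq_to_K _
  rw [e5, e7, Complex.hasSum_ofReal] at e4
  have e8 := e4.mul_left (dm α)
  have e9 : (fun g => ‖(FS.mat I Λ).tr (adjoint (α g) * X)‖ ^ 2) =
      fun g => dm α * (dm α * ‖a g‖ ^ 2) := by
    funext g
    rw [htr, norm_mul, Complex.norm_real, Real.norm_eq_abs, mul_pow, sq_abs]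
    ring
  rw [e9]
  exact e8

end coef

theorem trr_add (X Y : Ell2 (I × Λ) →L[ℂ] Ell2 (I × Λ)) : trr (X + Y) = trr X + trr Y := by
  unfold trr FS.tr
  rw [← Complex.add_re, ← Finset.sum_add_distrib]
  congr 1
  refine Finset.sum_congr rfl fun i _ => ?_
  rw [ContinuousLinearMap.add_apply, inner_add_right]

theorem trr_sum {ι : Type} (F : Finset ι) (X : ι → (Ell2 (I × Λ) →L[ℂ] Ell2 (I × Λ))) :
    trr (∑ k ∈ F, X k) = ∑ k ∈ F, trr (X k) := by
  classical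
  induction F using Finset.induction_on with
  | empty => simp [trr, FS.tr]
  | insert a s ha ih => rw [Finset.sum_insert ha, Finset.sum_insert ha, trr_add, ih]

theorem adj_eu (k j : I) : adjoint (eu k j) = eu j k := by
  symm
  rw [ContinuousLinearMap.eq_adjoint_iff]
  intro v w
  rw [eu_apply, eu_apply, inner_smul_left, inner_smul_right, inner_dl, inner_dl_right]
  ring

theorem adj_mu (k j : I) (s : Λ) : adjoint (mu k j s) = mu j k s⁻¹ := by
  rw [mu, adjoint_tens, adj_eu, adjoint_lam]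
  rfl

theorem mu_mul_self (k j i : I) (s t : Λ) : mu k j s * mu j i t = mu k i (s * t) := by
  have h : eu k j * eu j i = eu k i := by
    ext1 v
    rw [mul_ap, eu_apply, eu_apply, eu_apply]
    rw [lp.coeFn_smul, Pi.smul_apply, dl_self, smul_eq_mul, mul_one]
  rw [mu, mu, ← tens_mul, h, ← lam_mul]
  rfl

section frame

variable {α : Γ → (Ell2 (I × Λ) →L[ℂ] Ell2 (I × Λ))} (hα : AF α)

include hα

/-- **[FRAME-T]** A finite Parseval frame of `p ℓ²(I × Λ)`, `p = α 1`. -/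
theorem exists_frame (hΛ : ∀ s : Λ, s ≠ 1 → Set.Infinite {y : Λ | ∃ h, y = h * s * h⁻¹}) :
    ∃ (m : ℕ) (ζ : Fin m → Ell2 (I × Λ)), (∀ k, α 1 (ζ k) = ζ k) ∧
      (∑ k, ‖ζ k‖ ^ 2 = (dm α)⁻¹) ∧
      ∀ u, HasSum (fun x : Fin m × Γ => ‖⟪α x.2 (ζ x.1), u⟫_ℂ‖ ^ 2) (‖α 1 u‖ ^ 2) := by
  classical
  have hI : Nonempty I := by
    by_contra h
    rw [not_nonempty_iff] at h
    apply hα.ne
    apply op_ext
    rintro ⟨i, _⟩
    exact (h.false i).elim
  obtain ⟨i0⟩ := hI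
  have hd := dm_pos hα
  set e : Ell2 (I × Λ) →L[ℂ] Ell2 (I × Λ) := mu i0 i0 1 with he
  have hee : e * e = e := by rw [he, mu_mul_self, one_mul]
  have hea : adjoint e = e := by rw [he, adj_mu, inv_one]
  have hcme : Eqv (FS.mat I Λ).R (FS.mat I Λ).R e := cm_iff.1 (mu_cm _ _ _)
  obtain ⟨m, v, hv, hev, hvp, hsum⟩ := exists_rows hΛ (hα.comm 1) hα.p_adj hα.pp hα.ne hcme hea hee
  set c : ℝ := Real.sqrt (dm α)⁻¹ with hc
  have hc2 : c ^ 2 = (dm α)⁻¹ := Real.sq_sqrt (inv_nonneg.2 hd.le)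
  have hc0 : 0 ≤ c := Real.sqrt_nonneg _
  set ζ : Fin m → Ell2 (I × Λ) := fun k => (c : ℂ) • adjoint (v k) (dl (i0, 1)) with hζ
  have hpv : ∀ k, α 1 (adjoint (v k) (dl (i0, (1 : Λ)))) = adjoint (v k) (dl (i0, 1)) := by
    intro k
    have h1 := congrArg adjoint (hvp k)
    have h2 : adjoint (v k * α 1) = α 1 * adjoint (v k) := by
      have := star_mul (v k) (α 1)
      rw [star_eq_adjoint, star_eq_adjoint, star_eq_adjoint, hα.p_adj] at this
      exact this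
    rw [h2] at h1
    exact congrArg (fun T : Ell2 (I × Λ) →L[ℂ] Ell2 (I × Λ) => T (dl (i0, 1))) h1
  -- the key identity on bounded vectors
  have key : ∀ z : Ell2 (I × Λ) →L[ℂ] Ell2 (I × Λ), Eqv (FS.mat I Λ).R (FS.mat I Λ).R z →
      α 1 * z = z → z * e = z →
      HasSum (fun x : Fin m × Γ => ‖⟪α x.2 (ζ x.1), z (dl (i0, 1))⟫_ℂ‖ ^ 2)
        (‖z (dl (i0, 1))‖ ^ 2) := by
    intro z hz hpz hze
    have hz0 : ∀ i, i ≠ i0 → z (dl (i, (1 : Λ))) = 0 := by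
      intro i hi
      have h1 : e (dl (i, (1 : Λ))) = 0 := mu_dl_ne (Ne.symm hi) _ _
      have h2 : z (e (dl (i, (1 : Λ)))) = z (dl (i, 1)) :=
        congrArg (fun T : Ell2 (I × Λ) →L[ℂ] Ell2 (I × Λ) => T (dl (i, 1))) hze
      rw [← h2, h1, map_zero]
    have hone : ∀ k g, ⟪α g (ζ k), z (dl (i0, 1))⟫_ℂ =
        (c : ℂ) * (FS.mat I Λ).tr (adjoint (α g) * (z * v k)) := by
      intro k g
      have h1 := (FS.mat I Λ).tr_comm (FS.mat I Λ) (X := adjoint (α g) ∘L z) (Y := v k)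
        (((FS.mat I Λ).eqv_adjoint (FS.mat I Λ) (hα.comm g)).comp hz) (hv k)
      have h2 : (FS.mat I Λ).tr (v k ∘L (adjoint (α g) ∘L z)) =
          ⟪(dl (i0, 1) : Ell2 (I × Λ)), v k (adjoint (α g) (z (dl (i0, 1))))⟫_ℂ := by
        unfold FS.tr
        rw [Finset.sum_eq_single i0]
        · rfl
        · intro i _ hi
          rw [FS.mat_base, comp_apply, comp_apply, hz0 i hi, map_zero, map_zero, inner_zero_right]
        · intro h
          exact absurd (Finset.mem_univ i0) h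
      have h3 : (adjoint (α g) ∘L z) ∘L v k = adjoint (α g) * (z * v k) := rfl
      rw [← h3, ← h1, h2, hζ]
      change ⟪α g ((c : ℂ) • adjoint (v k) (dl (i0, 1))), z (dl (i0, 1))⟫_ℂ = _
      rw [map_smul, inner_smul_left, Complex.conj_ofReal, ← adjoint_inner_right,
        adjoint_inner_left]
    have hX : ∀ k, HasSum (fun g => ‖⟪α g (ζ k), z (dl (i0, 1))⟫_ℂ‖ ^ 2)
        (trr ((z * v k) * star (z * v k))) := by
      intro k
      have h1 := coef_sum hα (X := z * v k) (hz.mul (hv k)) (by rw [← mul_assoc, hpz])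
        (by rw [mul_assoc, hvp])
      have h2 := h1.mul_left (c ^ 2)
      have h3 : c ^ 2 * (dm α * ∑ i, ‖(z * v k) (dl (i, 1))‖ ^ 2) =
          trr ((z * v k) * star (z * v k)) := by
        rw [trOn.comm _ (cm_iff.2 (hz.mul (hv k))), trr_star_mul, hc2, ← mul_assoc,
          inv_mul_cancel₀ hd.ne', one_mul]
      rw [h3] at h2
      have h4 : (fun g => ‖⟪α g (ζ k), z (dl (i0, 1))⟫_ℂ‖ ^ 2) =
          fun g => c ^ 2 * ‖(FS.mat I Λ).tr (adjoint (α g) * (z * v k))‖ ^ 2 := by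
        funext g
        rw [hone, norm_mul, Complex.norm_real, Real.norm_eq_abs, mul_pow, sq_abs]
      rw [h4]
      exact h2
    have hS : ∑ k, trr ((z * v k) * star (z * v k)) = ‖z (dl (i0, 1))‖ ^ 2 := by
      rw [← trr_sum]
      have h1 : ∑ k, (z * v k) * star (z * v k) = z * star z := by
        have h2 : ∀ k, (z * v k) * star (z * v k) = z * (v k * adjoint (v k)) * star z := by
          intro k
          rw [star_mul, ← star_eq_adjoint]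
          simp only [mul_assoc]
        rw [Finset.sum_congr rfl fun k _ => h2 k, ← Finset.sum_mul, ← Finset.mul_sum, hsum, hze]
      rw [h1, trOn.comm _ (cm_iff.2 hz), trr_star_mul, Finset.sum_eq_single i0]
      · intro i _ hi
        rw [hz0 i hi, norm_zero, zero_pow two_ne_zero]
      · intro h
        exact absurd (Finset.mem_univ i0) h
    rw [← hS]
    have hprod : Summable fun x : Fin m × Γ => ‖⟪α x.2 (ζ x.1), z (dl (i0, 1))⟫_ℂ‖ ^ 2 := by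
      rw [summable_prod_of_nonneg fun _ => by positivity]
      exact ⟨fun k => (hX k).summable, (hasSum_fintype _).summable⟩
    have h5 := hprod.hasSum.prod_fiberwise hX
    rw [← h5.unique (hasSum_fintype _)]
    exact hprod.hasSum
  -- finitely supported vectors
  have fin : ∀ (F : Finset (I × Λ)) (u : Ell2 (I × Λ)),
      HasSum (fun x : Fin m × Γ => ‖⟪α x.2 (ζ x.1), ∑ y ∈ F, u y • dl y⟫_ℂ‖ ^ 2)
        (‖α 1 (∑ y ∈ F, u y • dl y)‖ ^ 2) := by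
    intro F u
    set z : Ell2 (I × Λ) →L[ℂ] Ell2 (I × Λ) := α 1 * ∑ y ∈ F, u y • mu y.1 i0 y.2 with hz
    have h1 : z (dl (i0, 1)) = α 1 (∑ y ∈ F, u y • dl y) := by
      rw [hz, mul_ap, ContinuousLinearMap.sum_apply]
      congr 1
      refine Finset.sum_congr rfl fun y _ => ?_
      rw [ContinuousLinearMap.smul_apply, mu_dl_self, mul_one]
    have h2 := key z ((hα.comm 1).mul (Eqv.sum F fun y _ => (cm_iff.1 (mu_cm _ _ _)).smul _))
      (by rw [hz, ← mul_assoc, hα.pp]) (by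
        rw [hz, mul_assoc, Finset.sum_mul]
        congr 1
        refine Finset.sum_congr rfl fun y _ => ?_
        rw [smul_mul_assoc, he, mu_mul_self, mul_one])
    rw [h1] at h2
    have h3 : (fun x : Fin m × Γ => ‖⟪α x.2 (ζ x.1), α 1 (∑ y ∈ F, u y • dl y)⟫_ℂ‖ ^ 2) =
        fun x : Fin m × Γ => ‖⟪α x.2 (ζ x.1), ∑ y ∈ F, u y • dl y⟫_ℂ‖ ^ 2 := by
      funext x
      rw [← hα.p_left, hα.p_mul_apply]
    rwa [h3] at h2
  have hlim : ∀ u : Ell2 (I × Λ), Tendsto (fun F : Finset (I × Λ) => ∑ y ∈ F, u y • dl y) atTop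
      (𝓝 u) := fun u => hasSum_dl u
  have hbes : Bes 1 (fun x : Fin m × Γ => α x.2 (ζ x.1)) := by
    intro G u
    have h1 : Tendsto (fun F : Finset (I × Λ) => ∑ x ∈ G,
        ‖⟪α x.2 (ζ x.1), ∑ y ∈ F, u y • dl y⟫_ℂ‖ ^ 2) atTop
        (𝓝 (∑ x ∈ G, ‖⟪α x.2 (ζ x.1), u⟫_ℂ‖ ^ 2)) :=
      tendsto_finsetSum _ fun x _ => ((tendsto_const_nhds.inner (hlim u)).norm.pow 2)
    have h2 : Tendsto (fun F : Finset (I × Λ) => ‖α 1 (∑ y ∈ F, u y • dl y)‖ ^ 2) atTop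
        (𝓝 (‖α 1 u‖ ^ 2)) := (((α 1).continuous.tendsto _).comp (hlim u)).norm.pow 2
    have h3 : ∑ x ∈ G, ‖⟪α x.2 (ζ x.1), u⟫_ℂ‖ ^ 2 ≤ ‖α 1 u‖ ^ 2 :=
      le_of_tendsto_of_tendsto' h1 h2 fun F =>
        sum_le_hasSum G (fun _ _ => by positivity) (fin F u)
    refine h3.trans ?_
    rw [one_pow, one_mul]
    have h4 : ‖α 1 u‖ ≤ ‖u‖ := by
      have h5 : ‖α 1 u‖ ^ 2 = (⟪u, α 1 u⟫_ℂ).re := by
        have h6 : ⟪u, α 1 u⟫_ℂ = ⟪α 1 u, α 1 u⟫_ℂ := by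
          rw [hα.p_left, hα.pp_apply]
        rw [h6, inner_self_eq_norm_sq_to_K]
        norm_cast
      by_cases h0 : ‖α 1 u‖ = 0
      · rw [h0]; exact norm_nonneg _
      · have h7 : ‖α 1 u‖ ^ 2 ≤ ‖u‖ * ‖α 1 u‖ := by
          rw [h5]
          exact (Complex.re_le_norm _).trans (norm_inner_le_norm _ _)
        have h8 : 0 < ‖α 1 u‖ := lt_of_le_of_ne (norm_nonneg _) (Ne.symm h0)
        rw [sq] at h7
        exact le_of_mul_le_mul_right h7 h8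
    gcongr
  refine ⟨m, ζ, fun k => ?_, ?_, fun u => ?_⟩
  · change α 1 ((c : ℂ) • adjoint (v k) (dl (i0, 1))) = (c : ℂ) • adjoint (v k) (dl (i0, 1))
    rw [map_smul, hpv]
  · have h1 : ∀ k, ‖ζ k‖ ^ 2 = c ^ 2 * (⟪(dl (i0, 1) : Ell2 (I × Λ)),
        (v k * adjoint (v k)) (dl (i0, 1))⟫_ℂ).re := by
      intro k
      change ‖(c : ℂ) • adjoint (v k) (dl (i0, 1))‖ ^ 2 = _
      rw [norm_smul, mul_pow, Complex.norm_real, Real.norm_eq_abs, sq_abs, mul_ap,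
        ← adjoint_inner_left, inner_self_eq_norm_sq_to_K]
      norm_cast
    rw [Finset.sum_congr rfl fun k _ => h1 k, ← Finset.mul_sum, ← Complex.re_sum, ← inner_sum,
      ← ContinuousLinearMap.sum_apply, hsum, he, mu_dl_self, mul_one, inner_dl, dl_self, hc2]
    simp
  · have hn : ‖anOp hbes u‖ ^ 2 = ‖α 1 u‖ ^ 2 := by
      have h1 : Tendsto (fun F : Finset (I × Λ) => ‖anOp hbes (∑ y ∈ F, u y • dl y)‖ ^ 2) atTop
          (𝓝 (‖anOp hbes u‖ ^ 2)) := (((anOp hbes).continuous.tendsto _).comp (hlim u)).norm.pow 2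
      have h2 : Tendsto (fun F : Finset (I × Λ) => ‖α 1 (∑ y ∈ F, u y • dl y)‖ ^ 2) atTop
          (𝓝 (‖α 1 u‖ ^ 2)) := (((α 1).continuous.tendsto _).comp (hlim u)).norm.pow 2
      refine tendsto_nhds_unique h1 (h2.congr fun F => ?_)
      rw [norm_sq (anOp hbes _)]
      exact (fin F u).tsum_eq.symm
    rw [← hn, norm_sq]
    exact (summable_sq (anOp hbes u)).hasSum

end frame

/-! ### The mirror image -/

section mirror

/-- `(J ξ)(i, s) = conj ξ(i, s⁻¹)` -/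
noncomputable def jv (u : Ell2 (I × Λ)) : Ell2 (I × Λ) := rei (ivE I Λ) (cj u)

omit [Fintype I] in
theorem jv_apply (u : Ell2 (I × Λ)) (i : I) (s : Λ) :
    jv u (i, s) = (starRingEnd ℂ) (u (i, s⁻¹)) := rfl

omit [Fintype I] in
theorem jv_jv (u : Ell2 (I × Λ)) : jv (jv u) = u := by
  apply ext_inner_dl
  rintro ⟨i, s⟩
  rw [jv_apply, jv_apply, inv_inv, Complex.conj_conj]

omit [Fintype I] in
theorem JT_apply (x : Ell2 (I × Λ) →L[ℂ] Ell2 (I × Λ)) (u : Ell2 (I × Λ)) :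
    JT x u = jv (x (jv u)) := by
  apply ext_inner_dl
  rintro ⟨i, s⟩
  rfl

omit [Fintype I] in
theorem norm_jv (u : Ell2 (I × Λ)) : ‖jv u‖ = ‖u‖ := by
  rw [jv, norm_rei, norm_cj]

omit [Fintype I] in
theorem inner_jv (u v : Ell2 (I × Λ)) : ⟪jv u, jv v⟫_ℂ = (starRingEnd ℂ) ⟪u, v⟫_ℂ := by
  rw [jv, jv, inner_rei, inner_cj_cj]

omit [Fintype I] in
theorem JT_mul (x y : Ell2 (I × Λ) →L[ℂ] Ell2 (I × Λ)) : JT (x * y) = JT x * JT y := by
  ext1 u
  rw [mul_ap, JT_apply, JT_apply, JT_apply, jv_jv]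
  rfl

omit [Fintype I] in
theorem JT_one : JT (1 : Ell2 (I × Λ) →L[ℂ] Ell2 (I × Λ)) = 1 := by
  ext1 u
  rw [JT_apply, one_apply_eq_self, one_apply_eq_self, jv_jv]

omit [Fintype I] in
theorem JT_adj (x : Ell2 (I × Λ) →L[ℂ] Ell2 (I × Λ)) : JT (adjoint x) = adjoint (JT x) := by
  rw [ContinuousLinearMap.eq_adjoint_iff]
  intro u v
  rw [JT_apply, JT_apply]
  calc ⟪jv (adjoint x (jv u)), v⟫_ℂ = ⟪jv (adjoint x (jv u)), jv (jv v)⟫_ℂ := by rw [jv_jv]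
    _ = (starRingEnd ℂ) ⟪adjoint x (jv u), jv v⟫_ℂ := inner_jv _ _
    _ = (starRingEnd ℂ) ⟪jv u, x (jv v)⟫_ℂ := by rw [adjoint_inner_left]
    _ = ⟪jv (jv u), jv (x (jv v))⟫_ℂ := (inner_jv _ _).symm
    _ = _ := by rw [jv_jv]

omit [Fintype I] in
theorem jv_add (u v : Ell2 (I × Λ)) : jv (u + v) = jv u + jv v := by
  rw [jv, cj_add, map_add]; rfl

omit [Fintype I] in
theorem JT_add (x y : Ell2 (I × Λ) →L[ℂ] Ell2 (I × Λ)) : JT (x + y) = JT x + JT y := by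
  ext1 u
  rw [ContinuousLinearMap.add_apply, JT_apply, JT_apply, JT_apply, ← jv_add]
  rfl

omit [Fintype I] in
theorem JT_zero : JT (0 : Ell2 (I × Λ) →L[ℂ] Ell2 (I × Λ)) = 0 := by
  have h := JT_add (0 : Ell2 (I × Λ) →L[ℂ] Ell2 (I × Λ)) 0
  rw [add_zero] at h
  exact left_eq_add.1 h

omit [Fintype I] in
theorem JT_sum {ι : Type} (F : Finset ι) (X : ι → (Ell2 (I × Λ) →L[ℂ] Ell2 (I × Λ))) :
    JT (∑ k ∈ F, X k) = ∑ k ∈ F, JT (X k) := by
  classical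
  induction F using Finset.induction_on with
  | empty => simp [JT_zero]
  | insert a s ha ih => rw [Finset.sum_insert ha, Finset.sum_insert ha, JT_add, ih]

/-- the mirror image of right translations -/
theorem JT_R (s : Λ) : JT ((FS.mat I Λ).R s) = tens 1 (lam s) := by
  apply op_ext
  rintro ⟨i, t⟩
  have h1 : ∀ (a : I × Λ), jv (dl a : Ell2 (I × Λ)) = dl (a.1, a.2⁻¹) := by
    intro a
    rw [jv, cj_dl, rei_dl]
    rfl
  rw [JT_apply, h1, FS.R_dl, FS.mat_act, h1, tens_dl, lam_dl, one_apply_eq_self, ← dl_prod]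
  simp only [mul_inv_rev, inv_inv]

variable {α : Γ → (Ell2 (I × Λ) →L[ℂ] Ell2 (I × Λ))} (hα : AF α)

include hα

/-- **[FRAME-T]** for the mirror image: a finite Parseval frame for `γ ↦ JT (α γ)`. -/
theorem exists_frame_JT (hΛ : ∀ s : Λ, s ≠ 1 → Set.Infinite {y : Λ | ∃ h, y = h * s * h⁻¹}) :
    ∃ (m : ℕ) (ζ : Fin m → Ell2 (I × Λ)), (∀ k, JT (α 1) (ζ k) = ζ k) ∧
      (∑ k, ‖ζ k‖ ^ 2 = (dm α)⁻¹) ∧
      ∀ u, HasSum (fun x : Fin m × Γ => ‖⟪JT (α x.2) (ζ x.1), u⟫_ℂ‖ ^ 2) (‖JT (α 1) u‖ ^ 2) := by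
  obtain ⟨m, ζ, h1, h2, h3⟩ := exists_frame hα hΛ
  refine ⟨m, fun k => jv (ζ k), fun k => ?_, ?_, fun u => ?_⟩
  · rw [JT_apply, jv_jv, h1]
  · rw [← h2]
    exact Finset.sum_congr rfl fun k _ => by rw [norm_jv]
  · have h4 := h3 (jv u)
    have h5 : (fun x : Fin m × Γ => ‖⟪JT (α x.2) (jv (ζ x.1)), u⟫_ℂ‖ ^ 2) =
        fun x : Fin m × Γ => ‖⟪α x.2 (ζ x.1), jv u⟫_ℂ‖ ^ 2 := by
      funext x
      have h6 : ⟪JT (α x.2) (jv (ζ x.1)), u⟫_ℂ = (starRingEnd ℂ) ⟪α x.2 (ζ x.1), jv u⟫_ℂ := by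
        rw [JT_apply, jv_jv, ← inner_jv, jv_jv]
      rw [h6, RCLike.norm_conj]
    rw [h5, JT_apply, norm_jv]
    exact h4

/-- rows `v_k`, commuting with the left translations, with `∑ v_k JT(p) v_k* = 1` -/
theorem exists_rows_JT (hΛ : ∀ s : Λ, s ≠ 1 → Set.Infinite {y : Λ | ∃ h, y = h * s * h⁻¹}) :
    ∃ (m : ℕ) (v : Fin m → (Ell2 (I × Λ) →L[ℂ] Ell2 (I × Λ))),
      (∀ k s, v k * tens 1 (lam s) = tens 1 (lam s) * v k) ∧ (∀ k, v k * JT (α 1) = v k) ∧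
      ∑ k, v k * adjoint (v k) = 1 ∧ ∑ k, v k * JT (α 1) * adjoint (v k) = 1 := by
  have h1a : adjoint (1 : Ell2 (I × Λ) →L[ℂ] Ell2 (I × Λ)) = 1 := star_one _
  obtain ⟨m, v, hv, -, hvp, hs⟩ := exists_rows hΛ (hα.comm 1) hα.p_adj hα.pp hα.ne
    (e := 1) (fun _ _ => rfl) h1a (one_mul 1)
  have h2 : ∀ k, JT (v k) * JT (α 1) = JT (v k) := fun k => by rw [← JT_mul, hvp]
  have h3 : ∑ k, JT (v k) * adjoint (JT (v k)) = 1 := by
    rw [← JT_one, ← hs, JT_sum]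
    exact Finset.sum_congr rfl fun k _ => by rw [JT_mul, JT_adj]
  refine ⟨m, fun k => JT (v k), fun k s => ?_, h2, h3, ?_⟩
  · rw [← JT_R, ← JT_mul, ← JT_mul]
    congr 1
    ext1 u
    exact hv k s u
  · rw [← h3]
    exact Finset.sum_congr rfl fun k _ => by rw [h2]

/-- rows `v_k`, commuting with the right translations, with `∑ v_k p v_k* = 1` -/
theorem exists_rows_al (hΛ : ∀ s : Λ, s ≠ 1 → Set.Infinite {y : Λ | ∃ h, y = h * s * h⁻¹}) :
    ∃ (m : ℕ) (v : Fin m → (Ell2 (I × Λ) →L[ℂ] Ell2 (I × Λ))),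
      (∀ k, Eqv (FS.mat I Λ).R (FS.mat I Λ).R (v k)) ∧ (∀ k, v k * α 1 = v k) ∧
      ∑ k, v k * adjoint (v k) = 1 := by
  have h1a : adjoint (1 : Ell2 (I × Λ) →L[ℂ] Ell2 (I × Λ)) = 1 := star_one _
  obtain ⟨m, v, hv, -, hvp, hs⟩ := exists_rows hΛ (hα.comm 1) hα.p_adj hα.pp hα.ne
    (e := 1) (fun _ _ => rfl) h1a (one_mul 1)
  exact ⟨m, v, hv, hvp, hs⟩

end mirror

end Vale.Agent.P092.H58
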