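import Vale.Agent.P092.SR.Main
import Vale.Agent.P092.H200.HeightL
import Vale.Agent.P092.H962.MT5
import Vale.Agent.P092.H839.FlipStmt

/-!
P092, project C (helper58), [C-END2]: the last step. From a vector `w` (or finitely many vectors)
which `V g` moves only by `R₁ a`, `R₂ b` to the canonical form of the isomorphism, `t = 1` and all
`t`.
-/

set_option linter.all false

open scoped InnerProductSpace
open ContinuousLinearMap

namespace Vale.Agent.P092.H58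

open Vale.Agent.P092 Vale.Agent.P092.H160 Vale.Agent.P092.H103 Vale.Agent.P092.H962
open Vale.Agent.P092.SR (VV RR₁ RR₂)

section rep

variable {Γ ℋ : Type} [Group Γ] [NormedAddCommGroup ℋ] [InnerProductSpace ℂ ℋ] [CompleteSpace ℋ]

theorem norm_rep {V : Γ →* (ℋ →L[ℂ] ℋ)} (hV : ∀ g, adjoint (V g) = V g⁻¹) (g : Γ) (v : ℋ) :
    ‖V g v‖ = ‖v‖ := by
  have h1 : ⟪V g v, V g v⟫_ℂ = ⟪v, v⟫_ℂ := by
    rw [← adjoint_inner_right, hV]
    congr 1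
    change (V g⁻¹ * V g) v = v
    rw [← map_mul, inv_mul_cancel, map_one]
    rfl
  rw [inner_self_eq_norm_sq_to_K, inner_self_eq_norm_sq_to_K] at h1
  have h2 : ‖V g v‖ ^ 2 = ‖v‖ ^ 2 := by exact_mod_cast h1
  exact (pow_left_inj₀ (norm_nonneg _) (norm_nonneg _) two_ne_zero).mp h2

/-- a rank one picture gives overlap `1` -/
theorem overlap_of_rank1 {V R₁ R₂ : Γ →* (ℋ →L[ℂ] ℋ)} (hV : ∀ g, adjoint (V g) = V g⁻¹)
    (h₁ : ∀ g, adjoint (R₁ g) = R₁ g⁻¹) (h₂ : ∀ g, adjoint (R₂ g) = R₂ g⁻¹) {w : ℋ} (hw : w ≠ 0)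
    (h : ∀ g, ∃ (a b : Γ) (z : ℂ), V g w = z • R₁ a (R₂ b w)) (g : Γ) :
    ∃ a b : Γ, ‖w‖ ^ 2 ≤ ‖⟪V g w, R₁ a (R₂ b w)⟫_ℂ‖ := by
  obtain ⟨a, b, z, hz⟩ := h g
  refine ⟨a, b, ?_⟩
  have hn : ‖w‖ ≠ 0 := norm_ne_zero_iff.mpr hw
  have hz1 : ‖z‖ = 1 := by
    have := congrArg norm hz
    rw [norm_smul, norm_rep hV, norm_rep h₁, norm_rep h₂] at this
    exact mul_right_cancel₀ hn (by rw [one_mul]; exact this.symm)
  rw [hz, inner_smul_left, norm_mul, RCLike.norm_conj, hz1, one_mul, inner_self_eq_norm_sq_to_K]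
  have h3 : ‖R₁ a (R₂ b w)‖ = ‖w‖ := by rw [norm_rep h₁, norm_rep h₂]
  rw [h3]
  simp

end rep

/-- the end at `t = 1` -/
theorem canon_of_rank1 {Γ Λ : Type} [Group Γ] [Group Λ]
    (hΓ : ∀ g : Γ, g ≠ 1 → Set.Infinite {y : Γ | ∃ h, y = h * g * h⁻¹}) (θ : St.StarIso Γ Λ)
    (w : Ell2 (Λ × Λ)) (hw : w ≠ 0)
    (h : ∀ g, ∃ (a b : Γ) (z : ℂ), VV (alphaOf (toAlg θ)) g w =
      z • RR₁ (alphaOf (toAlg θ)) a (RR₂ (alphaOf (toAlg θ)) b w)) : St.Canonical θ := by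
  have hα : Frame (alphaOf (toAlg θ)) := frame_of_iso hΓ (toAlg θ)
  have hn : ‖w‖ ≠ 0 := norm_ne_zero_iff.mpr hw
  have hT := H839.modelStmt _ hα
  have hV := norm_rep hT.adjV
  have h₁ := norm_rep hT.adj₁
  have h₂ := norm_rep hT.adj₂
  obtain ⟨c, hc, hp4⟩ := H200.HeightL.heightStmt (alphaOf (toAlg θ)) hα ((‖w‖⁻¹ : ℂ) • w)
    (by rw [norm_smul]; simp [hn]) fun g => by
      obtain ⟨a, b, z, hz⟩ := h g
      refine ⟨a, b, z, ?_, ?_⟩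
      · have := congrArg norm hz
        rw [norm_smul, hV, h₁, h₂] at this
        exact mul_right_cancel₀ hn (by rw [one_mul]; exact this.symm)
      · rw [map_smul, map_smul, map_smul, hz, smul_comm]
  exact canonical_iff θ (canonical_of_form _ (canon_of_p4 hα hΓ hc hp4))

section all

variable {Γ Λ : Type} [Group Γ] [Group Λ] {n : ℕ} {p : H103.St.MOp n Λ}

/-- overlap on `HH(α, α, α)`, `α = alf θ`, gives the conclusion for all `t` -/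
theorem canonM_of_overlap (hΓ : ∀ g : Γ, g ≠ 1 → Set.Infinite {y : Γ | ∃ h, y = h * g * h⁻¹})
    (hΛ : ∀ s : Λ, s ≠ 1 → Set.Infinite {y : Λ | ∃ h, y = h * s * h⁻¹}) (hp : H103.St.IsProj p)
    (θ : H103.St.CornerIso Γ Λ n p) {α : Γ → (Ell2 (Fin n × Λ) →L[ℂ] Ell2 (Fin n × Λ))}
    (hαd : α = H103.alf θ) (hα : AF α) {r : ℕ} (ζ : Fin r → HH (PT α α α)) {κ : ℝ} (hκ : 0 < κ)
    (h : ∀ g, ∃ i j, ∃ a b : Γ, κ ≤ ‖⟪V3 hα hα hα g (ζ i), A3R hα hα hα a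
      (B3R hα hα hα b (ζ j))⟫_ℂ‖) : H103.St.mtr p = 1 ∧ H103.St.CanonicalM θ := by
  subst hαd
  refine hb_can hΓ hΛ hp θ (J := Fin n) (K := Fin n)
    (fun i => (ζ i : Ell2 (Fin n × ((Fin n × Λ) × (Fin n × Λ))))) hκ fun g => ?_
  obtain ⟨i, j, a, b, h⟩ := h g
  refine ⟨i, j, JT (H103.alf θ a), JT (H103.alf θ b), JT_norm (al_norm hα a),
    JT_norm (al_norm hα b), ?_⟩
  rw [Submodule.coe_inner, V3_val, RR3_val] at h
  have e1 : R1T (Fin n) (Fin n) (H103.alf θ a) * R2T (Fin n) (Fin n) (H103.alf θ b) =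
      tens 1 (tens (JT (H103.alf θ a)) (JT (H103.alf θ b))) := by
    rw [R1T, R2T, ← tens_mul, ← tens_mul, one_mul, one_mul, mul_one]
  have e2 : R1T (Fin n) (Fin n) (H103.alf θ a) (R2T (Fin n) (Fin n) (H103.alf θ b)
      (ζ j : Ell2 (Fin n × ((Fin n × Λ) × (Fin n × Λ))))) =
      tens 1 (tens (JT (H103.alf θ a)) (JT (H103.alf θ b)))
        (ζ j : Ell2 (Fin n × ((Fin n × Λ) × (Fin n × Λ)))) := by
    rw [← e1]; rfl
  rw [e2] at h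
  exact h

/-- the end for all `t` -/
theorem canonM_of_rank1 (hΓ : ∀ g : Γ, g ≠ 1 → Set.Infinite {y : Γ | ∃ h, y = h * g * h⁻¹})
    (hΛ : ∀ s : Λ, s ≠ 1 → Set.Infinite {y : Λ | ∃ h, y = h * s * h⁻¹}) (hp : H103.St.IsProj p)
    (θ : H103.St.CornerIso Γ Λ n p) {α : Γ → (Ell2 (Fin n × Λ) →L[ℂ] Ell2 (Fin n × Λ))}
    (hαd : α = H103.alf θ) (hα : AF α) (w : HH (PT α α α)) (hw : w ≠ 0)
    (h : ∀ g, ∃ (a b : Γ) (z : ℂ), V3 hα hα hα g w = z • A3R hα hα hα a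
      (B3R hα hα hα b w)) : H103.St.mtr p = 1 ∧ H103.St.CanonicalM θ := by
  obtain ⟨m, m', ξ, hT⟩ := exists_tri hα hα hα hΛ
  refine canonM_of_overlap hΓ hΛ hp θ hαd hα (r := 1) (fun _ => w)
    (κ := ‖w‖ ^ 2) (by positivity) fun g => ?_
  obtain ⟨a, b, hab⟩ := overlap_of_rank1 hT.adjV hT.adj₁ hT.adj₂ hw h g
  exact ⟨0, 0, a, b, hab⟩

end all

end Vale.Agent.P092.H58
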