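import Vale.Agent.P092.H58.QtFin
import Vale.Agent.P092.H58.FinR
import Vale.Agent.P092.Q.Ex

/-!
P092, project Q-T (helper58): the final statement for all amplifications and all local fields, with
the named examples.
-/

set_option linter.all false

open Vale.Agent.P092.H515.St Vale.Agent.P092.SR.St Vale.Agent.P092.Q.St

namespace Vale.Agent.P092.H58

/-- Non-archimedean local fields are local fields. -/
theorem productLattice_of_padic {Γ : Type} [Group Γ] (h : PadicLattice Γ) : ProductLattice Γ := by
  obtain ⟨hicc, r, k, hk, n, i, hr, hp, hu, hn, hi⟩ := h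
  exact ⟨hicc, Fin r, inferInstance, k, hk, n, i, hp, fun j => LocK.ultra (hu j), hn, hi.inj, hi.lat,
    hi.dense⟩

theorem finalQT :
    (∀ (Γ : Type) [Group Γ], ProductLattice Γ → SuperAll Γ) ∧
    (∀ n N : ℕ, Odd n → 3 ≤ n → 2 ≤ N →
      SuperAll (Matrix.SpecialLinearGroup (Fin n) (Localization.Away (N : ℤ)))) ∧
    ∀ (F : Type) [Field F] [Finite F] (n : ℕ), 2 ≤ n → Nat.Coprime n (Nat.card F - 1) →
      SuperAll (Matrix.SpecialLinearGroup (Fin n) (LaurentPolynomial F)) :=
  ⟨fun Γ _ h => superAllQT Γ h,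
    fun n N hn h3 hN => superAllQT _ (Vale.Agent.P092.Q.productLattice_SL n N hn h3 hN),
    fun F _ _ n hn hc => superAllQT _ (productLattice_of_padic (padicLattice_of_product _ (H678.padic_SL n F hn hc)))⟩

end Vale.Agent.P092.H58
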