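import Vale.Agent.P092.H333.FinQT
import Vale.Agent.P092.H866.T.Erg
import Vale.Agent.P092.H971.ErgTd
import Vale.Agent.P092.H448.ErgFinal
import Vale.Agent.P092.H971.QGrp
import Vale.Agent.P092.QC.Sl
import Vale.Agent.P092.QT.NE.NeSL
import Vale.Agent.P092.QT.Q.Main
import Vale.Agent.P092.QT.Q.Mat
import Vale.Agent.P092.QT.Q.Alg
import Vale.Agent.P092.QT.Q.End
import Vale.Agent.P092.QT.H448.Gal2
import Vale.Agent.P092.QT.H720.C1
import Vale.Agent.P092.QT.H978.C2c
import Vale.Agent.P092.QT.H565.C3

/-!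
P092, project Q-T (helper58): all blocks plugged in; the final theorem for all amplifications and
all local fields.
-/

set_option linter.all false

open scoped InnerProductSpace Topology ENNReal
open Filter ContinuousLinearMap MeasureTheory

namespace Vale.Agent.P092.H58

open Vale.Agent.P092.H971 (pj pjq)
open Vale.Agent.P092.H333.Amp (ErgStmtT)

/-- Ergodicity at all places, all amplifications. -/
theorem ergStmtT : ErgStmtT := by
  intro I _ n k _ _ hk' hn Γ hlat hd hicc Λ _ _ K _ α hα hΛ i β hβ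
  have hk : ∀ i, H933.LocK (k i) := fun i => H448.locK_of (hk' i)
  rcases H866.conn_or_ultra (hk i) with h | h
  · haveI := h
    haveI : Nontrivial (Fin (n i)) := Fin.nontrivial_iff_two_le.2 (hn i)
    haveI := H866.preconnected_psl (n := Fin (n i)) (k := k i)
    exact H866.T.ergC_conn (PA.facS_psl (hk i) (hn i)) hicc hΛ hα hα hβ
      ((QuotientGroup.mk'_surjective _).denseRange.comp (hd i) continuous_quotient_mk')
  · haveI := h
    refine H971.ergC_td_quot (QC.td_sl (hn i)) hicc hα hα hβ hΛ (hd i) (fun U hU g hg => ?_) _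
    refine H971.infinite_lift (pj Γ i)
      (QuotientGroup.mk' (Subgroup.center (Matrix.SpecialLinearGroup (Fin (n i)) (k i))))
      QuotientGroup.isOpenMap_coe ?_ (H448.ricc_loc hk hn Γ hlat i (hd i) hicc hg) U hU
    rw [QuotientGroup.ker_mk']
    exact H793.finite_center

/-- The blocks. -/
theorem blkT : QT.Q.Blk where
  mat := QT.Q.matStmt
  two := QT.Q.twoStmt
  alg := QT.Q.algStmt
  gal := Vale.Agent.P092.QT.H448.Gal.galStmt
  c1 := QT.H720.c1Stmt
  c2 := QT.H978.c2Stmt
  c3 := QT.H565.c3Stmt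
  fin := QT.Q.endStmt

/-- **Project Q-T, without hypotheses.** -/
theorem superAllQT (Γ : Type) [Group Γ] (h : Q.St.ProductLattice Γ) : SR.St.SuperAll Γ :=
  H333.Amp.superAll_final blkT H971.grpStmt ergStmtT (QT.NE.neStmtT_of ergStmtT) Γ h

end Vale.Agent.P092.H58
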