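import Vale.Agent.P092.H58.Wot
import Vale.Agent.P092.H103.Side

/-!
P092 (helper58) [FRAME-T], part 1: `M_I(L(Λ))` is a factor with a faithful trace if `Λ` is ICC;
rows `v_k` of `M_I(L(Λ))` with `∑ v_k p v_k* = 1` for every projection `p ≠ 0`.
-/

set_option linter.all false

open scoped InnerProductSpace
open Filter Topology ContinuousLinearMap
open Vale.Agent.P092.H160 Vale.Agent.P092.H103

namespace Vale.Agent.P092.H58

variable {Λ I : Type} [Group Λ] [Fintype I]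

/-- the right translations on `ℓ²(I × Λ)` -/
def Rs (I Λ : Type) [Group Λ] : Set (Ell2 (I × Λ) →L[ℂ] Ell2 (I × Λ)) :=
  Set.range fun s : Λ => (FS.mat I Λ).R s

theorem star_Rs : ∀ a ∈ Rs I Λ, star a ∈ Rs I Λ := by
  rintro _ ⟨s, rfl⟩
  exact ⟨s⁻¹, by rw [star_eq_adjoint, FS.R_adj]⟩

theorem cm_iff {X : Ell2 (I × Λ) →L[ℂ] Ell2 (I × Λ)} :
    Cm (Rs I Λ) X ↔ Eqv (FS.mat I Λ).R (FS.mat I Λ).R X := by
  constructor
  · intro h s v
    exact congrArg (fun T : Ell2 (I × Λ) →L[ℂ] Ell2 (I × Λ) => T v) (h _ ⟨s, rfl⟩)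
  · rintro h _ ⟨s, rfl⟩
    ext1 v
    exact h s v

/-- the matrix unit `E_kj` on `ℓ²(I)` -/
noncomputable def eu (k j : I) : Ell2 I →L[ℂ] Ell2 I :=
  (innerSL ℂ (dl j : Ell2 I)).smulRight (dl k)

theorem eu_apply (k j : I) (v : Ell2 I) : eu k j v = v j • dl k := by
  change ⟪(dl j : Ell2 I), v⟫_ℂ • dl k = _
  rw [inner_dl]

/-- matrix units times left translations -/
noncomputable def mu (k j : I) (s : Λ) : Ell2 (I × Λ) →L[ℂ] Ell2 (I × Λ) := tens (eu k j) (lam s)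

theorem mu_cm (k j : I) (s : Λ) : Cm (Rs I Λ) (mu k j s) := by
  rintro _ ⟨t, rfl⟩
  change mu k j s * (FS.mat I Λ).R t = (FS.mat I Λ).R t * mu k j s
  rw [FS.mat_R, mu, ← tens_mul, ← tens_mul, one_mul, mul_one, rho_lam]

theorem mu_dl_self (k j : I) (s t : Λ) : mu k j s (dl (j, t)) = dl (k, s * t) := by
  rw [mu, tens_dl, eu_apply, dl_self, one_smul, lam_dl, dl_prod]

theorem mu_dl_ne {k j i : I} (h : j ≠ i) (s t : Λ) : mu k j s (dl (i, t)) = 0 := by
  rw [mu, tens_dl, eu_apply, dl_ne h, zero_smul, tv_zero_left]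

/-- `M_I(L(Λ))` is a factor -/
theorem fac (hΛ : ∀ s : Λ, s ≠ 1 → Set.Infinite {y : Λ | ∃ h, y = h * s * h⁻¹}) [Nonempty I] :
    Fac (Rs I Λ) := by
  classical
  intro z hz hc
  obtain ⟨j⟩ := ‹Nonempty I›
  set v : Ell2 (I × Λ) := z (dl (j, 1)) with hv
  have hR : ∀ s u, z ((FS.mat I Λ).R s u) = (FS.mat I Λ).R s (z u) := cm_iff.1 hz
  -- left translations
  have hL : ∀ (s : Λ) (u : Ell2 (I × Λ)), z (tens 1 (lam s) u) = tens 1 (lam s) (z u) := by
    intro s u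
    have h1 : Cm (Rs I Λ) (tens (1 : Ell2 I →L[ℂ] Ell2 I) (lam s)) := by
      rintro _ ⟨t, rfl⟩
      change _ * (FS.mat I Λ).R t = (FS.mat I Λ).R t * _
      rw [FS.mat_R, ← tens_mul, ← tens_mul, rho_lam]
    exact congrArg (fun T : Ell2 (I × Λ) →L[ℂ] Ell2 (I × Λ) => T u) (hc _ h1)
  have hinv : ∀ s : Λ, tens 1 (lam s) ((FS.mat I Λ).R s v) = v := by
    intro s
    have h1 : tens (1 : Ell2 I →L[ℂ] Ell2 I) (lam s) ((FS.mat I Λ).R s (dl (j, (1 : Λ)))) =
        dl (j, 1) := by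
      rw [FS.R_dl, FS.mat_act, one_mul, tens_dl, lam_dl, mul_inv_cancel]
      exact (dl_prod j 1).symm
    rw [hv, ← hR, ← hL, h1]
  have hval : ∀ (i : I) (s x : Λ), v (i, s * x * s⁻¹) = v (i, x) := by
    intro i s x
    have h1 : tens (1 : Ell2 I →L[ℂ] Ell2 I) (lam s) ((FS.mat I Λ).R s (dl (i, x))) =
        dl (i, s * x * s⁻¹) := by
      rw [FS.R_dl, FS.mat_act, tens_dl, lam_dl, ← mul_assoc]
      exact (dl_prod i _).symm
    have h2 : ∀ a b : Ell2 (I × Λ), ⟪tens (1 : Ell2 I →L[ℂ] Ell2 I) (lam s) a,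
        tens (1 : Ell2 I →L[ℂ] Ell2 I) (lam s) b⟫_ℂ = ⟪a, b⟫_ℂ := by
      intro a b
      have h3 : adjoint (1 : Ell2 I →L[ℂ] Ell2 I) = 1 := star_one (Ell2 I →L[ℂ] Ell2 I)
      rw [← adjoint_inner_right, adjoint_tens, adjoint_lam, h3, ← mul_ap, ← tens_mul,
        ← lam_mul, inv_mul_cancel, lam_one, one_mul, tens_one]
      rfl
    rw [← inner_dl (i, s * x * s⁻¹), ← h1]
    conv_lhs => rw [← hinv s]
    rw [h2, FS.R_inner, inner_dl]
  have hzero : ∀ (i : I) (x : Λ), x ≠ 1 → v (i, x) = 0 := by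
    intro i x hx
    by_contra hne
    have h1 : Summable fun y : Λ => ‖v (i, y)‖ ^ 2 :=
      (summable_sq v).comp_injective (Prod.mk_right_injective i)
    have h2 := h1.tendsto_cofinite_zero
    have hpos : 0 < ‖v (i, x)‖ ^ 2 := by positivity
    have h3 := h2.eventually (gt_mem_nhds hpos)
    rw [Filter.eventually_cofinite] at h3
    refine hΛ x hx (h3.subset ?_)
    rintro y ⟨s, rfl⟩
    change ¬ (‖v (i, s * x * s⁻¹)‖ ^ 2 < ‖v (i, x)‖ ^ 2)
    rw [hval]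
    exact lt_irrefl _
  have hveq : v = ∑ i, v (i, 1) • dl (i, (1 : Λ)) := by
    apply ext_inner_dl
    rintro ⟨i, x⟩
    rw [lp.coeFn_sum, Finset.sum_apply]
    by_cases hx : x = 1
    · subst hx
      rw [Finset.sum_eq_single i]
      · rw [lp.coeFn_smul, Pi.smul_apply, dl_self, smul_eq_mul, mul_one]
      · intro i' _ hi
        rw [lp.coeFn_smul, Pi.smul_apply, dl_ne, smul_zero]
        intro h
        exact hi (congrArg Prod.fst h).symm
      · intro h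
        exact absurd (Finset.mem_univ i) h
    · rw [hzero i x hx, Finset.sum_eq_zero]
      intro i' _
      rw [lp.coeFn_smul, Pi.smul_apply, dl_ne, smul_zero]
      intro h
      exact hx (congrArg Prod.snd h)
  refine ⟨v (j, 1), ?_⟩
  refine (FS.mat I Λ).ext_base (FS.mat I Λ) (cm_iff.1 hz) (fun s u => ?_) fun k => ?_
  · rw [ContinuousLinearMap.smul_apply, ContinuousLinearMap.smul_apply, one_apply_eq_self,
      one_apply_eq_self, map_smul]
  · rw [FS.mat_base, ContinuousLinearMap.smul_apply, one_apply_eq_self]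
    have h1 : z (mu k j 1 (dl (j, (1 : Λ)))) = mu k j 1 (z (dl (j, 1))) :=
      congrArg (fun T : Ell2 (I × Λ) →L[ℂ] Ell2 (I × Λ) => T (dl (j, (1 : Λ)))) (hc _ (mu_cm k j 1))
    rw [mu_dl_self, mul_one] at h1
    rw [h1, ← hv]
    conv_lhs => rw [hveq]
    rw [map_sum, Finset.sum_eq_single j]
    · rw [map_smul, mu_dl_self, mul_one]
    · intro i _ hi
      rw [map_smul, mu_dl_ne hi.symm, smul_zero]
    · intro h
      exact absurd (Finset.mem_univ j) h

/-- the trace of `M_I(L(Λ))` -/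
noncomputable def trr (X : Ell2 (I × Λ) →L[ℂ] Ell2 (I × Λ)) : ℝ := ((FS.mat I Λ).tr X).re

theorem trr_star_mul (X : Ell2 (I × Λ) →L[ℂ] Ell2 (I × Λ)) :
    trr (star X * X) = ∑ i, ‖X (dl (i, 1))‖ ^ 2 := by
  unfold trr FS.tr
  rw [Complex.re_sum]
  refine Finset.sum_congr rfl fun i _ => ?_
  rw [mul_ap, star_eq_adjoint, adjoint_inner_right, FS.mat_base, inner_self_eq_norm_sq_to_K]
  norm_cast

theorem trOn : TrOn (Rs I Λ) (trr (I := I) (Λ := Λ)) where
  sub x y _ _ := by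
    unfold trr FS.tr
    rw [← Complex.sub_re, ← Finset.sum_sub_distrib]
    congr 1
    refine Finset.sum_congr rfl fun i _ => ?_
    rw [ContinuousLinearMap.sub_apply, inner_sub_right]
  comm x hx := by
    unfold trr
    have h1 := cm_iff.1 hx
    have h2 := (FS.mat I Λ).eqv_adjoint (FS.mat I Λ) h1
    exact congrArg Complex.re ((FS.mat I Λ).tr_comm (FS.mat I Λ) h2 h1)
  nonneg x _ := by
    rw [trr_star_mul]
    positivity
  faithful x hx h := by
    rw [trr_star_mul, Finset.sum_eq_zero_iff_of_nonneg fun _ _ => by positivity] at h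
    refine (FS.mat I Λ).ext_base (FS.mat I Λ) (cm_iff.1 hx) (fun s u => ?_) fun i => ?_
    · rw [ContinuousLinearMap.zero_apply, ContinuousLinearMap.zero_apply, map_zero]
    · have h1 := h i (Finset.mem_univ i)
      rw [FS.mat_base, ContinuousLinearMap.zero_apply]
      exact norm_eq_zero.1 (pow_eq_zero_iff two_ne_zero |>.1 h1)

/-- Rows for a projection `p ≠ 0` of `M_I(L(Λ))`: finitely many `v_k` with `∑ v_k p v_k* = e`. -/
theorem exists_rows (hΛ : ∀ s : Λ, s ≠ 1 → Set.Infinite {y : Λ | ∃ h, y = h * s * h⁻¹})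
    {p : Ell2 (I × Λ) →L[ℂ] Ell2 (I × Λ)} (hp : Eqv (FS.mat I Λ).R (FS.mat I Λ).R p)
    (hpa : adjoint p = p) (hpp : p * p = p) (hp0 : p ≠ 0)
    {e : Ell2 (I × Λ) →L[ℂ] Ell2 (I × Λ)} (he : Eqv (FS.mat I Λ).R (FS.mat I Λ).R e)
    (hea : adjoint e = e) (hee : e * e = e) :
    ∃ (m : ℕ) (v : Fin m → (Ell2 (I × Λ) →L[ℂ] Ell2 (I × Λ))),
      (∀ k, Eqv (FS.mat I Λ).R (FS.mat I Λ).R (v k)) ∧ (∀ k, e * v k = v k) ∧
      (∀ k, v k * p = v k) ∧ ∑ k, v k * adjoint (v k) = e := by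
  have hI : Nonempty I := by
    by_contra h
    rw [not_nonempty_iff] at h
    apply hp0
    apply op_ext
    rintro ⟨i, _⟩
    exact (h.false i).elim
  obtain ⟨m, v, hv, hs⟩ := exists_family star_Rs (fac hΛ) trOn (cm_iff.2 hp)
    (by rw [star_eq_adjoint, hpa]) hpp hp0 (cm_iff.2 he) (by rw [star_eq_adjoint, hea]) hee
  exact ⟨m, v, fun k => cm_iff.1 (hv k).1, fun k => (hv k).2.1, fun k => (hv k).2.2, hs⟩

end Vale.Agent.P092.H58
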