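import Mathlib

/-!
P092 (helper58): comparison of projections in the commutant `M = Cm S` of a `*`-closed set `S` of
operators, when `M` is a factor with a faithful trace; in particular finitely many partial
isometries of `M` with initial projections below a given `p ≠ 0` add up to any projection `e`.
-/

set_option linter.all false

open scoped InnerProductSpace Topology
open Filter ContinuousLinearMap

namespace Vale.Agent.P092.H58

variable {H : Type*} [NormedAddCommGroup H] [InnerProductSpace ℂ H] [CompleteSpace H]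

open ContinuousLinearMapWOT in
theorem isCompact_ball : IsCompact {A : H →WOT[ℂ] H | ‖A.toCLM‖ ≤ 1} := by
  rw [isCompact_iff_ultrafilter_le_nhds]
  intro U hU
  have hball : ∀ᶠ A in (U : Filter (H →WOT[ℂ] H)), ‖A.toCLM‖ ≤ 1 := by
    exact Filter.le_principal_iff.1 hU
  have hlim : ∀ x y : H, ∃ c : ℂ, ‖c‖ ≤ ‖x‖ * ‖y‖ ∧
      Filter.Tendsto (fun A : H →WOT[ℂ] H => ⟪A.toCLM x, y⟫_ℂ) U (𝓝 c) := by
    intro x y
    have hK : IsCompact (Metric.closedBall (0 : ℂ) (‖x‖ * ‖y‖)) := isCompact_closedBall _ _
    have h1 : ((U.map (fun A : H →WOT[ℂ] H => ⟪A.toCLM x, y⟫_ℂ) : Ultrafilter ℂ) : Filter ℂ) ≤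
        Filter.principal (Metric.closedBall (0 : ℂ) (‖x‖ * ‖y‖)) := by
      rw [Filter.le_principal_iff]
      change ∀ᶠ A in (U : Filter (H →WOT[ℂ] H)), ⟪A.toCLM x, y⟫_ℂ ∈ Metric.closedBall (0 : ℂ) (‖x‖ * ‖y‖)
      filter_upwards [hball] with A hA
      rw [mem_closedBall_zero_iff]
      calc ‖⟪A.toCLM x, y⟫_ℂ‖ ≤ ‖A.toCLM x‖ * ‖y‖ := norm_inner_le_norm _ _
        _ ≤ (‖A.toCLM‖ * ‖x‖) * ‖y‖ := by gcongr; exact A.toCLM.le_opNorm x
        _ ≤ (1 * ‖x‖) * ‖y‖ := by gcongr
        _ = ‖x‖ * ‖y‖ := by ring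
    obtain ⟨c, hc, hcU⟩ := (isCompact_iff_ultrafilter_le_nhds.1 hK) _ h1
    exact ⟨c, by simpa only [Metric.mem_closedBall, dist_zero_right] using hc, hcU⟩
  choose φ hφ1 hφ2 using hlim
  let B0 : H →ₗ⋆[ℂ] H →ₗ[ℂ] ℂ := LinearMap.mk₂'ₛₗ (starRingEnd ℂ) (RingHom.id ℂ) φ
    (by
      intro x x' y
      refine tendsto_nhds_unique (hφ2 (x + x') y) ?_
      have := (hφ2 x y).add (hφ2 x' y)
      refine this.congr fun A => ?_
      simp)
    (by
      intro c x y
      refine tendsto_nhds_unique (hφ2 (c • x) y) ?_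
      have := (hφ2 x y).const_mul (starRingEnd ℂ c)
      refine this.congr fun A => ?_
      simp [mul_comm])
    (by
      intro x y y'
      refine tendsto_nhds_unique (hφ2 x (y + y')) ?_
      have := (hφ2 x y).add (hφ2 x y')
      refine this.congr fun A => ?_
      simp)
    (by
      intro c x y
      refine tendsto_nhds_unique (hφ2 x (c • y)) ?_
      have := (hφ2 x y).const_mul c
      refine this.congr fun A => ?_
      simp)
  let B : H →L⋆[ℂ] H →L[ℂ] ℂ := B0.mkContinuous₂ 1 (by
    intro x y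
    rw [one_mul]
    exact hφ1 x y)
  let T : H →L[ℂ] H := InnerProductSpace.continuousLinearMapOfBilin B
  have hT : ∀ x y, ⟪T x, y⟫_ℂ = φ x y := fun x y =>
    InnerProductSpace.continuousLinearMapOfBilin_apply B x y
  refine ⟨ofCLM T, ?_, ?_⟩
  · change ‖T‖ ≤ 1
    refine ContinuousLinearMap.opNorm_le_bound _ zero_le_one fun x => ?_
    rw [one_mul]
    by_cases hx : T x = 0
    · rw [hx, norm_zero]; exact norm_nonneg _
    · have h1 : ‖⟪T x, T x⟫_ℂ‖ ≤ ‖x‖ * ‖T x‖ := by rw [hT]; exact hφ1 x (T x)
      rw [inner_self_eq_norm_sq_to_K] at h1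
      have h2 : ‖T x‖ * ‖T x‖ ≤ ‖x‖ * ‖T x‖ := by
        simpa only [Complex.coe_algebraMap, sq, Complex.norm_mul, Complex.norm_real, norm_norm] using h1
      exact le_of_mul_le_mul_right h2 (norm_pos_iff.2 hx)
  · rw [le_nhds_iff_forall_inner_apply_le_nhds]
    intro x y
    have h1 := hφ2 x y
    have h2 : Filter.Tendsto (fun A : H →WOT[ℂ] H => ⟪y, A x⟫_ℂ) U (𝓝 ⟪y, T x⟫_ℂ) := by
      have := (Complex.continuous_conj.tendsto _).comp h1
      rw [← hT, inner_conj_symm] at this
      refine this.congr fun A => ?_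
      simp
    exact h2

open ContinuousLinearMapWOT in
theorem isClosed_comm (c d : H →L[ℂ] H) :
    IsClosed {A : H →WOT[ℂ] H | c * A.toCLM = A.toCLM * d} := by
  have h : {A : H →WOT[ℂ] H | c * A.toCLM = A.toCLM * d} =
      {A : H →WOT[ℂ] H | (ofCLM c).comp A = A.comp (ofCLM d)} := by
    ext A
    exact ⟨fun h => toCLM_injective h, fun h => congrArg toCLM h⟩
  rw [h]
  exact isClosed_eq (continuous_postcomp (ofCLM c)) (continuous_precomp (ofCLM d))

/-- The commutant of a set of operators. -/
def Cm (S : Set (H →L[ℂ] H)) (x : H →L[ℂ] H) : Prop := ∀ a ∈ S, x * a = a * x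

section cm

variable {S : Set (H →L[ℂ] H)} {x y : H →L[ℂ] H}

theorem Cm.mul (hx : Cm S x) (hy : Cm S y) : Cm S (x * y) := fun a ha => by
  rw [mul_assoc, hy a ha, ← mul_assoc, hx a ha, mul_assoc]

theorem Cm.add (hx : Cm S x) (hy : Cm S y) : Cm S (x + y) := fun a ha => by
  rw [add_mul, mul_add, hx a ha, hy a ha]

theorem Cm.sub (hx : Cm S x) (hy : Cm S y) : Cm S (x - y) := fun a ha => by
  rw [sub_mul, mul_sub, hx a ha, hy a ha]

theorem Cm.smul (c : ℂ) (hx : Cm S x) : Cm S (c • x) := fun a ha => by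
  rw [smul_mul_assoc, mul_smul_comm, hx a ha]

theorem Cm.one : Cm S (1 : H →L[ℂ] H) := fun a _ => by rw [one_mul, mul_one]

theorem Cm.zero : Cm S (0 : H →L[ℂ] H) := fun a _ => by rw [zero_mul, mul_zero]

theorem Cm.star (hS : ∀ a ∈ S, star a ∈ S) (hx : Cm S x) : Cm S (star x) := fun a ha => by
  have h1 := congrArg Star.star (hx _ (hS a ha))
  rw [star_mul, star_mul, star_star] at h1
  exact h1.symm

end cm

theorem isClosed_Cm (S : Set (H →L[ℂ] H)) : IsClosed {A : H →WOT[ℂ] H | Cm S A.toCLM} := by
  have h : {A : H →WOT[ℂ] H | Cm S A.toCLM} =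
      ⋂ y ∈ S, {A : H →WOT[ℂ] H | y * A.toCLM = A.toCLM * y} := by
    ext A
    simp only [Set.mem_iInter, Set.mem_ofPred_eq]
    exact ⟨fun hx y hy => (hx y hy).symm, fun h y hy => (h y hy).symm⟩
  rw [h]
  exact isClosed_biInter fun y _ => isClosed_comm y y

theorem isCompact_set (S : Set (H →L[ℂ] H)) (e q : H →L[ℂ] H) :
    IsCompact {A : H →WOT[ℂ] H | ‖A.toCLM‖ ≤ 1 ∧ Cm S A.toCLM ∧ e * A.toCLM = A.toCLM ∧
      A.toCLM * q = A.toCLM} := by
  have h1 : IsClosed {A : H →WOT[ℂ] H | Cm S A.toCLM ∧ e * A.toCLM = A.toCLM ∧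
      A.toCLM * q = A.toCLM} := by
    refine (isClosed_Cm S).inter (IsClosed.inter ?_ ?_)
    · have := isClosed_comm e (1 : H →L[ℂ] H)
      simp only [mul_one] at this
      exact this
    · have := isClosed_comm (1 : H →L[ℂ] H) q
      simp only [one_mul] at this
      have h2 : {A : H →WOT[ℂ] H | A.toCLM = A.toCLM * q} =
          {A : H →WOT[ℂ] H | A.toCLM * q = A.toCLM} := by
        ext A
        exact ⟨fun h => h.symm, fun h => h.symm⟩
      rw [h2] at this
      exact this
  exact isCompact_ball.inter_right h1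

theorem exists_extreme (S : Set (H →L[ℂ] H)) (e q : H →L[ℂ] H) :
    ∃ v, Cm S v ∧ ‖v‖ ≤ 1 ∧ e * v = v ∧ v * q = v ∧
      ∀ x, Cm S x → ‖v + x‖ ≤ 1 → ‖v - x‖ ≤ 1 → e * x = x → x * q = x → x = 0 := by
  obtain ⟨v, hv⟩ := (isCompact_set S e q).extremePoints_nonempty
    ⟨ContinuousLinearMapWOT.ofCLM 0, by
      change ‖(0 : H →L[ℂ] H)‖ ≤ 1
      rw [norm_zero]; exact zero_le_one, Cm.zero, mul_zero _, zero_mul _⟩
  obtain ⟨⟨hv1, hv2, hv3, hv4⟩, hv5⟩ := hv
  refine ⟨v.toCLM, hv2, hv1, hv3, hv4, fun x hx hx1 hx2 hx3 hx4 => ?_⟩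
  have key := @hv5 (v + ContinuousLinearMapWOT.ofCLM x)
    ⟨hx1, hv2.add hx, by change e * (v.toCLM + x) = v.toCLM + x; rw [mul_add, hx3, hv3], by
      change (v.toCLM + x) * q = v.toCLM + x; rw [add_mul, hv4, hx4]⟩
    (v - ContinuousLinearMapWOT.ofCLM x)
    ⟨hx2, hv2.sub hx, by change e * (v.toCLM - x) = v.toCLM - x; rw [mul_sub, hx3, hv3], by
      change (v.toCLM - x) * q = v.toCLM - x; rw [sub_mul, hv4, hx4]⟩
    ⟨1/2, 1/2, by norm_num, by norm_num, by norm_num, by
      rw [smul_add, smul_sub, add_add_sub_cancel, ← add_smul]; norm_num⟩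
  have h6 : v.toCLM + x = v.toCLM := congrArg ContinuousLinearMapWOT.toCLM key
  exact left_eq_add.1 h6.symm

theorem norm_le_one_of_star_mul_self_le {x : H →L[ℂ] H} (h : star x * x ≤ 1) : ‖x‖ ≤ 1 := by
  have h1 : ‖star x * x‖ ≤ 1 :=
    (CStarAlgebra.norm_le_one_iff_of_nonneg (star x * x) (star_mul_self_nonneg x)).2 h
  rw [CStarRing.norm_star_mul_self] at h1
  nlinarith [norm_nonneg x]

theorem star_mul_self_le_one {x : H →L[ℂ] H} (h : ‖x‖ ≤ 1) : star x * x ≤ 1 := by
  refine (CStarAlgebra.norm_le_one_iff_of_nonneg (star x * x) (star_mul_self_nonneg x)).1 ?_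
  rw [CStarRing.norm_star_mul_self]
  nlinarith [norm_nonneg x]

/-- a maximal partial isometry from below `q` to below `e` -/
theorem exists_maximal {S : Set (H →L[ℂ] H)} (hS : ∀ a ∈ S, star a ∈ S) {e q : H →L[ℂ] H}
    (he : Cm S e) (hes : star e = e) (hee : e * e = e)
    (hq : Cm S q) (hqs : star q = q) (hqq : q * q = q) :
    ∃ v, Cm S v ∧ v * (star v * v) = v ∧ e * v = v ∧ v * q = v ∧
      ∀ y, Cm S y → (e - v * star v) * y * (q - star v * v) = 0 := by
  obtain ⟨v, hvQ, hv1, hev, hvq, hext⟩ := exists_extreme S e q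
  have hsv : Cm S (star v) := hvQ.star hS
  have haQ : Cm S (star v * v) := hsv.mul hvQ
  have ha1 : star v * v ≤ 1 := star_mul_self_le_one hv1
  have hva : ‖star v * v‖ ≤ 1 := by
    rw [CStarRing.norm_star_mul_self]; nlinarith [norm_nonneg v]
  have hqsv : q * star v = star v := by
    have := congrArg star hvq
    rwa [star_mul, hqs] at this
  have hsve : star v * e = star v := by
    have := congrArg star hev
    rwa [star_mul, hes] at this
  have hpi : v * (star v * v) = v := by
    have h0 : v * (((1 : ℂ) / 2) • (1 - star v * v)) = 0 := by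
      apply hext
      · exact hvQ.mul ((Cm.one.sub haQ).smul _)
      · apply norm_le_one_of_star_mul_self_le
        have hh : (1 : H →L[ℂ] H) - star (v + v * (((1 : ℂ) / 2) • (1 - star v * v))) *
            (v + v * (((1 : ℂ) / 2) • (1 - star v * v))) =
            (1 - star v * v) * (((1 : ℂ) / 4) • ((4 : ℂ) • 1 - star v * v)) *
              (1 - star v * v) := by
          simp only [star_add, star_mul, star_smul, star_sub, star_one, star_star, mul_add,
            add_mul, mul_sub, sub_mul, smul_sub, mul_smul_comm, smul_mul_assoc, mul_one, one_mul,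
            mul_assoc]
          simp only [one_div, star_inv₀, star_ofNat, smul_smul]
          norm_num
          module
        have hn : 0 ≤ (1 - star v * v) * (((1 : ℂ) / 4) • ((4 : ℂ) • 1 - star v * v)) *
              (1 - star v * v) := by
          have h5 : (0 : H →L[ℂ] H) ≤ ((1 : ℂ) / 4) • ((4 : ℂ) • 1 - star v * v) := by
            have h7 : (0 : H →L[ℂ] H) ≤ (1 - star v * v) + 1 + 1 + 1 := by
              have h9 : (0 : H →L[ℂ] H) ≤ 1 - star v * v := sub_nonneg.2 ha1
              have h10 : (0 : H →L[ℂ] H) ≤ 1 := zero_le_one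
              exact add_nonneg (add_nonneg (add_nonneg h9 h10) h10) h10
            have h8 := star_left_conjugate_nonneg h7 (((1 : ℂ) / 2) • (1 : H →L[ℂ] H))
            have h9 : star (((1 : ℂ) / 2) • (1 : H →L[ℂ] H)) * (1 - star v * v + 1 + 1 + 1) *
                (((1 : ℂ) / 2) • (1 : H →L[ℂ] H)) =
                ((1 : ℂ) / 4) • ((4 : ℂ) • 1 - star v * v) := by
              simp only [one_div, star_smul, star_inv₀, star_ofNat, star_one, smul_mul_assoc,
                one_mul, mul_smul_comm, mul_one, smul_smul]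
              norm_num
              module
            rw [h9] at h8
            exact h8
          have h6 : star (1 - star v * v) = 1 - star v * v := by
            simp only [star_sub, star_one, star_mul, star_star]
          have := star_left_conjugate_nonneg h5 (1 - star v * v)
          rwa [h6] at this
        rw [← hh] at hn
        exact sub_nonneg.1 hn
      · have : v - v * (((1 : ℂ) / 2) • (1 - star v * v)) =
            v * (((1 : ℂ) / 2) • (1 + star v * v)) := by
          simp only [smul_sub, mul_sub, mul_smul_comm, mul_one, smul_add, mul_add]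
          module
        rw [this]
        calc ‖v * (((1 : ℂ) / 2) • (1 + star v * v))‖
            ≤ ‖v‖ * ‖((1 : ℂ) / 2) • (1 + star v * v)‖ := norm_mul_le _ _
          _ ≤ 1 * 1 := by
              gcongr
              rw [norm_smul]
              have h7 : ‖(1 : H →L[ℂ] H) + star v * v‖ ≤ 1 + 1 :=
                (norm_add_le _ _).trans (add_le_add ContinuousLinearMap.norm_id_le hva)
              have h8 : ‖(1 : ℂ) / 2‖ = 1 / 2 := by norm_num
              rw [h8]; linarith
          _ = 1 := by norm_num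
      · rw [← mul_assoc, hev]
      · simp only [mul_smul_comm, smul_mul_assoc, mul_sub, sub_mul, mul_one, mul_assoc, hvq]
    rw [mul_smul_comm, smul_eq_zero, mul_sub, mul_one, sub_eq_zero] at h0
    rcases h0 with h0 | h0
    · norm_num at h0
    · exact h0.symm
  refine ⟨v, hvQ, hpi, hev, hvq, ?_⟩
  intro y hy
  set x : H →L[ℂ] H := (e - v * star v) * y * (q - star v * v) with hx
  have hv3 : star v * v * star v = star v := by
    have := congrArg star hpi
    simpa only [mul_assoc, star_mul, star_star] using this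
  have hvx : star v * x = 0 := by
    have h1 : star v * (e - v * star v) = 0 := by
      rw [mul_sub, hsve, ← mul_assoc, hv3, sub_self]
    rw [hx, ← mul_assoc, ← mul_assoc, h1, zero_mul, zero_mul]
  have hxv : x * star v = 0 := by
    have h1 : (q - star v * v) * star v = 0 := by
      rw [sub_mul, hqsv, hv3, sub_self]
    rw [hx, mul_assoc, h1, mul_zero]
  have hxM : Cm S x := ((he.sub (hvQ.mul hsv)).mul hy).mul (hq.sub haQ)
  have hex : e * x = x := by
    have h1 : e * (e - v * star v) = e - v * star v := by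
      rw [mul_sub, hee, ← mul_assoc, hev]
    rw [hx, ← mul_assoc, ← mul_assoc, h1]
  have hxq : x * q = x := by
    have h1 : (q - star v * v) * q = q - star v * v := by
      rw [sub_mul, hqq, mul_assoc, hvq]
    rw [hx, mul_assoc, h1]
  by_contra hx0
  have hnx : ‖x‖ ≠ 0 := norm_ne_zero_iff.2 hx0
  have hxsv : star x * v = 0 := by
    have := congrArg star hvx
    simpa only [star_mul, star_star, star_zero] using this
  have key : ∀ y : H →L[ℂ] H, star v * y = 0 → star y * v = 0 → y * star v = 0 → ‖y‖ ≤ 1 →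
      ‖v + y‖ ≤ 1 := by
    intro y h1 h2 h3 h4
    apply norm_le_one_of_star_mul_self_le
    have e1 : star (v + y) * (v + y) = star v * v + star y * y := by
      rw [star_add, add_mul, mul_add, mul_add, h1, h2]; simp only [add_zero, zero_add]
    have hyp : y * (1 - star v * v) = y := by
      rw [mul_sub, mul_one, ← mul_assoc, h3, zero_mul, sub_zero]
    have hps : star (1 - star v * v) = 1 - star v * v := by
      simp only [star_sub, star_one, star_mul, star_star]
    have hpp : (1 - star v * v) * (1 - star v * v) = 1 - star v * v := by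
      rw [mul_sub, mul_one, sub_mul, one_mul, mul_assoc, hpi, sub_self, sub_zero]
    have e2 : star y * y = star (1 - star v * v) * (star y * y) * (1 - star v * v) := by
      have h5 : star (1 - star v * v) * (star y * y) * (1 - star v * v) =
          star (y * (1 - star v * v)) * (y * (1 - star v * v)) := by
        rw [star_mul]; simp only [mul_assoc]
      rw [h5, hyp]
    have e3 : star y * y ≤ 1 - star v * v := by
      rw [e2]
      refine (star_left_conjugate_le_conjugate (star_mul_self_le_one h4) _).trans ?_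
      rw [mul_one, hps, hpp]
    rw [e1]
    calc star v * v + star y * y ≤ star v * v + (1 - star v * v) := by gcongr
      _ = 1 := by abel
  apply hx0
  have h1 : ((‖x‖⁻¹ : ℝ) : ℂ) • x = 0 := by
    have hn : ‖((‖x‖⁻¹ : ℝ) : ℂ) • x‖ ≤ 1 := by
      rw [norm_smul]
      simp only [Complex.ofReal_inv, norm_inv, Complex.norm_real, norm_norm]
      rw [inv_mul_cancel₀ hnx]
    apply hext _ (hxM.smul _)
    · apply key
      · rw [mul_smul_comm, hvx, smul_zero]
      · rw [star_smul, smul_mul_assoc, hxsv, smul_zero]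
      · rw [smul_mul_assoc, hxv, smul_zero]
      · exact hn
    · rw [sub_eq_add_neg]
      apply key
      · rw [mul_neg, mul_smul_comm, hvx, smul_zero, neg_zero]
      · rw [star_neg, neg_mul, star_smul, smul_mul_assoc, hxsv, smul_zero, neg_zero]
      · rw [neg_mul, smul_mul_assoc, hxv, smul_zero, neg_zero]
      · rw [norm_neg]; exact hn
    · rw [mul_smul_comm, hex]
    · rw [smul_mul_assoc, hxq]
  rcases smul_eq_zero.1 h1 with h | h
  · exfalso
    have : (‖x‖⁻¹ : ℝ) = 0 := by exact_mod_cast h
    exact hnx (inv_eq_zero.1 this)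
  · exact h

/-- the projection onto a closed subspace invariant under `a` and `a*` commutes with `a` -/
theorem proj_comm {K : Submodule ℂ H} [K.HasOrthogonalProjection] {a : H →L[ℂ] H}
    (h1 : ∀ x ∈ K, a x ∈ K) (h2 : ∀ x ∈ K, star a x ∈ K) :
    K.starProjection * a = a * K.starProjection := by
  ext ξ
  change K.starProjection (a ξ) = a (K.starProjection ξ)
  have h3 : a ξ = a (K.starProjection ξ) + a (ξ - K.starProjection ξ) := by
    rw [← map_add]; congr 1; abel
  have h4 : K.starProjection (a (K.starProjection ξ)) = a (K.starProjection ξ) :=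
    Submodule.starProjection_eq_self_iff.2 (h1 _ (Submodule.starProjection_apply_mem K ξ))
  have h5 : K.starProjection (a (ξ - K.starProjection ξ)) = 0 := by
    rw [Submodule.starProjection_apply_eq_zero_iff]
    intro k hk
    have h6 : ⟪star a k, ξ - K.starProjection ξ⟫_ℂ = 0 :=
      (Submodule.sub_starProjection_mem_orthogonal ξ) _ (h2 k hk)
    rw [star_eq_adjoint, adjoint_inner_left] at h6
    exact h6
  rw [h3, map_add, h4, h5, add_zero]

/-- `M` is a factor -/
def Fac (S : Set (H →L[ℂ] H)) : Prop :=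
  ∀ z, Cm S z → (∀ y, Cm S y → z * y = y * z) → ∃ c : ℂ, z = c • (1 : H →L[ℂ] H)

theorem Fac.eq_zero_or {S : Set (H →L[ℂ] H)} (hS : ∀ a ∈ S, star a ∈ S) (hF : Fac S)
    {p q : H →L[ℂ] H} (hq : Cm S q) (h : ∀ x, Cm S x → p * x * q = 0) : p = 0 ∨ q = 0 := by
  set K0 : Submodule ℂ H := Submodule.span ℂ {η | ∃ x, Cm S x ∧ ∃ ξ : H, η = x (q ξ)} with hK0
  set K : Submodule ℂ H := K0.topologicalClosure with hK
  have hcl : IsClosed (K : Set H) := Submodule.isClosed_topologicalClosure _
  haveI : CompleteSpace K := hcl.completeSpace_coe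
  have hinv : ∀ y : H →L[ℂ] H, (∀ x, Cm S x → ∀ ξ : H, y (x (q ξ)) ∈ K0) → ∀ k ∈ K, y k ∈ K := by
    intro y hy k hk
    have h1 : Set.MapsTo y (K0 : Set H) (K0 : Set H) := by
      intro η hη
      induction hη using Submodule.span_induction with
      | mem x hx => obtain ⟨x', hx', ξ, rfl⟩ := hx; exact hy x' hx' ξ
      | zero => simp
      | add a b _ _ ha hb => simpa using add_mem ha hb
      | smul c a _ ha => simpa only [map_smul, SetLike.mem_coe] using Submodule.smul_mem _ c ha
    exact map_mem_closure y.continuous hk h1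
  have hzM : Cm S K.starProjection := by
    have hkey : ∀ a ∈ S, ∀ x, Cm S x → ∀ ξ : H, a (x (q ξ)) ∈ K0 := by
      intro a ha x hx ξ
      apply Submodule.subset_span
      refine ⟨x, hx, a ξ, ?_⟩
      have h1 : x * a = a * x := hx a ha
      have h2 : q * a = a * q := hq a ha
      calc a (x (q ξ)) = (a * x) (q ξ) := rfl
        _ = x ((a * q) ξ) := by rw [← h1]; rfl
        _ = x (q (a ξ)) := by rw [← h2]; rfl
    intro a ha
    exact proj_comm (hinv a (hkey a ha)) (hinv _ (hkey _ (hS a ha)))
  have hzc : ∀ y, Cm S y → K.starProjection * y = y * K.starProjection := by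
    have hkey : ∀ y, Cm S y → ∀ x, Cm S x → ∀ ξ : H, y (x (q ξ)) ∈ K0 := by
      intro y hy x hx ξ
      apply Submodule.subset_span
      exact ⟨y * x, hy.mul hx, ξ, rfl⟩
    intro y hy
    exact proj_comm (hinv y (hkey y hy)) (hinv _ (hkey _ (hy.star hS)))
  obtain ⟨c, hc⟩ := hF _ hzM hzc
  by_cases h0 : c = 0
  · right
    ext ξ
    have h1 : q ξ ∈ K := by
      apply Submodule.le_topologicalClosure
      apply Submodule.subset_span
      exact ⟨1, Cm.one, ξ, rfl⟩
    have h2 : K.starProjection (q ξ) = q ξ := Submodule.starProjection_eq_self_iff.2 h1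
    rw [hc, h0, zero_smul] at h2
    exact h2.symm
  · left
    have h1 : K0 ≤ (p : H →ₗ[ℂ] H).ker := by
      rw [hK0, Submodule.span_le]
      rintro _ ⟨x, hx, ξ, rfl⟩
      exact congrArg (fun T : H →L[ℂ] H => T ξ) (h x hx)
    have h2 : K ≤ (p : H →ₗ[ℂ] H).ker := by
      rw [hK]
      exact Submodule.topologicalClosure_minimal _ h1 p.isClosed_ker
    ext ξ
    have h3 : p (K.starProjection ξ) = 0 := h2 (Submodule.starProjection_apply_mem K ξ)
    rw [hc] at h3
    change p (c • ξ) = 0 at h3
    rw [map_smul] at h3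
    exact (smul_eq_zero.1 h3).resolve_left h0

/-- comparison of projections in a factor -/
theorem comparison {S : Set (H →L[ℂ] H)} (hS : ∀ a ∈ S, star a ∈ S) (hF : Fac S) {e q : H →L[ℂ] H}
    (he : Cm S e) (hes : star e = e) (hee : e * e = e)
    (hq : Cm S q) (hqs : star q = q) (hqq : q * q = q) :
    ∃ v, Cm S v ∧ e * v = v ∧ v * q = v ∧ v * (star v * v) = v ∧
      (v * star v = e ∨ star v * v = q) := by
  obtain ⟨v, hv, hpi, hev, hvq, hmax⟩ := exists_maximal hS he hes hee hq hqs hqq
  refine ⟨v, hv, hev, hvq, hpi, ?_⟩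
  rcases hF.eq_zero_or hS (hq.sub ((hv.star hS).mul hv)) hmax with h | h
  · exact Or.inl (sub_eq_zero.1 h).symm
  · exact Or.inr (sub_eq_zero.1 h).symm

/-- A faithful trace on the projections of `M`. -/
structure TrOn (S : Set (H →L[ℂ] H)) (tr : (H →L[ℂ] H) → ℝ) : Prop where
  sub : ∀ x y, Cm S x → Cm S y → tr (x - y) = tr x - tr y
  comm : ∀ x, Cm S x → tr (x * star x) = tr (star x * x)
  nonneg : ∀ x, Cm S x → 0 ≤ tr (star x * x)
  faithful : ∀ x, Cm S x → tr (star x * x) = 0 → x = 0

/-- Finitely many partial isometries of `M` with initial projections below `q ≠ 0` fill `e`. -/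
theorem exists_family {S : Set (H →L[ℂ] H)} (hS : ∀ a ∈ S, star a ∈ S) (hF : Fac S)
    {tr : (H →L[ℂ] H) → ℝ} (ht : TrOn S tr) {q : H →L[ℂ] H} (hq : Cm S q) (hqs : star q = q)
    (hqq : q * q = q) (hq0 : q ≠ 0) {e : H →L[ℂ] H} (he : Cm S e) (hes : star e = e)
    (hee : e * e = e) :
    ∃ (m : ℕ) (v : Fin m → (H →L[ℂ] H)), (∀ k, Cm S (v k) ∧ e * v k = v k ∧ v k * q = v k) ∧
      ∑ k, v k * star (v k) = e := by
  have htq : 0 < tr q := by
    have h1 := ht.nonneg q hq
    rw [hqs, hqq] at h1
    refine lt_of_le_of_ne h1 fun h => hq0 (ht.faithful q hq ?_)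
    rw [hqs, hqq]; exact h.symm
  obtain ⟨n, hn⟩ := exists_nat_gt (tr e / tr q)
  have hn' : tr e < n * tr q := by rwa [div_lt_iff₀ htq] at hn
  clear hn
  induction n generalizing e with
  | zero =>
    exfalso
    have h1 := ht.nonneg e he
    rw [hes, hee] at h1
    simp at hn'
    linarith
  | succ n ih =>
    obtain ⟨v, hv, hev, hvq, hpi, h⟩ := comparison hS hF he hes hee hq hqs hqq
    have hvs : Cm S (v * star v) := hv.mul (hv.star hS)
    have hsve : star v * e = star v := by
      have := congrArg star hev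
      rwa [star_mul, hes] at this
    rcases h with h | h
    · exact ⟨1, fun _ => v, fun _ => ⟨hv, hev, hvq⟩, by simp [h]⟩
    · have h1 : star (e - v * star v) = e - v * star v := by
        rw [star_sub, hes, star_mul, star_star]
      have h3 : v * star v * (v * star v) = v * star v := by
        calc v * star v * (v * star v) = v * (star v * v) * star v := by simp only [mul_assoc]
          _ = v * star v := by rw [hpi]
      have h2 : (e - v * star v) * (e - v * star v) = e - v * star v := by
        rw [mul_sub, sub_mul, sub_mul, hee, h3, ← mul_assoc e, hev, mul_assoc v, hsve]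
        abel
      have h4 : tr (e - v * star v) < n * tr q := by
        rw [ht.sub _ _ he hvs, ht.comm v hv, h]
        push_cast at hn'
        linarith
      obtain ⟨m, w, hw, hsum⟩ := ih (he.sub hvs) h1 h2 h4
      refine ⟨m + 1, Fin.cons v w, ?_, ?_⟩
      · intro k
        refine Fin.cases ?_ (fun j => ?_) k
        · simp only [Fin.cons_zero]
          exact ⟨hv, hev, hvq⟩
        · simp only [Fin.cons_succ]
          obtain ⟨h5, h6, h7⟩ := hw j
          refine ⟨h5, ?_, h7⟩
          have h8 : e * (e - v * star v) = e - v * star v := by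
            rw [mul_sub, hee, ← mul_assoc, hev]
          rw [← h6, ← mul_assoc, h8]
      · rw [Fin.sum_univ_succ]
        simp only [Fin.cons_zero, Fin.cons_succ]
        rw [hsum]
        abel

end Vale.Agent.P092.H58
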